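import Mathlib

/-!
Basic objects: radial kernels, energies of finite configurations and grand canonical sums.
-/

namespace Vale.Agent.P171

open MeasureTheory Set Filter
open scoped ENNReal Topology

/-- Three-dimensional Euclidean space. -/
abbrev E3 : Type := EuclideanSpace ℝ (Fin 3)

/-- The closed box `[0, L]^3`. -/
def box (L : ℝ) : Set E3 := {x | ∀ i, x i ∈ Set.Icc 0 L}

/-- The multiset of positions of a finite configuration. -/
def conf {ι : Type} [Fintype ι] (x : ι → E3) : Multiset E3 := Finset.univ.val.map x

/-- Energy of a configuration (ordered pairs, halved) minus `ν` times the particle number. -/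
noncomputable def en (p : ℝ → ℝ) (ν : ℝ) (m : Multiset E3) : ℝ :=
  (m.map fun a => (m.map fun b => p (dist a b)).sum).sum / 2 - ν * (Multiset.card m : ℝ)

/-- Boltzmann weight. -/
noncomputable def wt (p : ℝ → ℝ) (ν : ℝ) (m : Multiset E3) : ℝ≥0∞ :=
  ENNReal.ofReal (Real.exp (-(en p ν m)))

/-- Integral of a configuration functional over configurations indexed by `ι` in `A`. -/
noncomputable def cint (ι : Type) [Fintype ι] (A : Set E3) (g : Multiset E3 → ℝ≥0∞) : ℝ≥0∞ :=
  ∫⁻ x in Set.univ.pi (fun _ : ι => A), g (conf x)

/-- Grand canonical integral of a configuration functional over `A`. -/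
noncomputable def gint (A : Set E3) (g : Multiset E3 → ℝ≥0∞) : ℝ≥0∞ :=
  ∑' N : ℕ, ((N.factorial : ℝ≥0∞))⁻¹ * cint (Fin N) A g

/-- Measurability of a configuration functional. -/
def MeasG (g : Multiset E3 → ℝ≥0∞) : Prop :=
  ∀ N : ℕ, Measurable (fun x : Fin N → E3 => g (conf x))

lemma conf_comp_equiv {ι κ : Type} [Fintype ι] [Fintype κ] (e : ι ≃ κ) (x : κ → E3) :
    conf (fun i => x (e i)) = conf x := by
  unfold conf
  have : (Finset.univ : Finset κ) = (Finset.univ : Finset ι).map e.toEmbedding := by
    simp
  rw [this, Finset.map_val, Multiset.map_map]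
  rfl

lemma conf_card {ι : Type} [Fintype ι] (x : ι → E3) :
    Multiset.card (conf x) = Fintype.card ι := by
  simp [conf]

lemma MeasG.fintype {g : Multiset E3 → ℝ≥0∞} (hg : MeasG g) (ι : Type) [Fintype ι] :
    Measurable (fun x : ι → E3 => g (conf x)) := by
  classical
  let e := (Fintype.equivFin ι).symm
  have hm : Measurable (fun x : ι → E3 => fun i => x (e i)) :=
    measurable_pi_lambda _ (fun i => measurable_pi_apply _)
  have := (hg (Fintype.card ι)).comp hm
  simpa [Function.comp_def, conf_comp_equiv] using this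

lemma conf_filter {ι : Type} [Fintype ι] (x : ι → E3) (P : E3 → Prop) [DecidablePred P] :
    (conf x).filter P = (Finset.univ.filter (fun i => P (x i))).val.map x := by
  unfold conf
  rw [Multiset.filter_map, Finset.filter_val]
  rfl

lemma conf_filter_sub {ι : Type} [Fintype ι] (x : ι → E3) (P : E3 → Prop) [DecidablePred P]
    (q : ι → Prop) {inst : Fintype {i // q i}} (h : ∀ i, q i ↔ P (x i)) :
    (conf x).filter P = @conf {i // q i} inst (fun i => x i) := by
  classical
  rw [conf_filter]
  unfold conf
  have h1 : Finset.univ.filter (fun i => P (x i))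
      = (Finset.univ : Finset {i // q i}).map (Function.Embedding.subtype q) := by
    ext i
    simp [h i]
  rw [h1, Finset.map_val, Multiset.map_map]
  rfl

lemma cint_equiv {ι κ : Type} [Fintype ι] [Fintype κ] (e : ι ≃ κ) (A : Set E3)
    (g : Multiset E3 → ℝ≥0∞) : cint ι A g = cint κ A g := by
  have hmp := volume_measurePreserving_piCongrLeft (fun _ : κ => E3) e
  unfold cint
  rw [← hmp.setLIntegral_comp_preimage_emb (MeasurableEquiv.measurableEmbedding _)]
  have happ : ∀ (x : ι → E3) (i : ι),
      (MeasurableEquiv.piCongrLeft (fun _ : κ => E3) e x) (e i) = x i := by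
    intro x i
    exact MeasurableEquiv.piCongrLeft_apply_apply e (β := fun _ : κ => E3) x i
  have hpre : (MeasurableEquiv.piCongrLeft (fun _ : κ => E3) e) ⁻¹'
      (Set.univ.pi fun _ : κ => A) = Set.univ.pi (fun _ : ι => A) := by
    ext x
    constructor
    · intro hx i _
      have := hx (e i) (mem_univ _)
      rwa [happ] at this
    · intro hx k _
      obtain ⟨i, rfl⟩ := e.surjective k
      rw [happ]
      exact hx i (mem_univ _)
  rw [hpre]
  refine lintegral_congr (fun x => ?_)
  rw [← conf_comp_equiv e (MeasurableEquiv.piCongrLeft (fun _ : κ => E3) e x)]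
  simp only [happ]

/-- Energy on a restricted configuration as a double sum. -/
lemma en_conf_filter (p : ℝ → ℝ) (ν : ℝ) {ι : Type} [Fintype ι] (x : ι → E3) (P : E3 → Prop)
    [DecidablePred P] :
    en p ν ((conf x).filter P) =
      (∑ i ∈ Finset.univ.filter (fun i => P (x i)),
        ∑ j ∈ Finset.univ.filter (fun j => P (x j)), p (dist (x i) (x j))) / 2
      - ν * ((Finset.univ.filter (fun i => P (x i))).card : ℝ) := by
  rw [conf_filter]
  unfold en
  simp only [Multiset.map_map, Multiset.card_map, Function.comp_def]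
  rfl

lemma en_conf (p : ℝ → ℝ) (ν : ℝ) {ι : Type} [Fintype ι] (x : ι → E3) :
    en p ν (conf x) =
      (∑ i, ∑ j, p (dist (x i) (x j))) / 2 - ν * (Fintype.card ι : ℝ) := by
  unfold en conf
  simp only [Multiset.map_map, Multiset.card_map, Function.comp_def]
  rfl

lemma measG_wt {p : ℝ → ℝ} (hp : Measurable p) (ν : ℝ) : MeasG (wt p ν) := by
  intro N
  unfold wt
  simp only [en_conf]
  fun_prop

lemma measurableSet_pattern {ι : Type} [Finite ι] {A : ι → Set E3}
    (h : ∀ i, MeasurableSet (A i)) : MeasurableSet (Set.univ.pi A) :=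
  MeasurableSet.pi Set.countable_univ (fun i _ => h i)

lemma measurableSet_box (L : ℝ) : MeasurableSet (box L) := by
  have : box L = ⋂ i, (fun x : E3 => x i) ⁻¹' Set.Icc 0 L := by
    ext x; simp [box]
  rw [this]
  exact MeasurableSet.iInter (fun i => (by fun_prop : Measurable fun x : E3 => x i) measurableSet_Icc)

end Vale.Agent.P171
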