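import Vale.Agent.P171.Pressure

/-!
Convexity, continuity, growth and a trial lower bound for the pressure.
-/

namespace Vale.Agent.P171

open MeasureTheory Set Filter Metric
open scoped ENNReal Topology

variable {N : ℕ}

lemma att_le_comb {τ τ₁ τ₂ : ℕ → ℝ} (hτ : Adm τ) (h₁ : Adm τ₁) (h₂ : Adm τ₂) {a b : ℝ}
    (h : ∀ k, τ k ≤ a * τ₁ k + b * τ₂ k) (r : ℝ) :
    att τ r ≤ a * att τ₁ r + b * att τ₂ r := by
  refine hasSum_le (fun k => ?_) (summable_att hτ r).hasSum
    (((summable_att h₁ r).hasSum.mul_left a).add ((summable_att h₂ r).hasSum.mul_left b))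
  have := mul_le_mul_of_nonneg_right (h k) (kern_nonneg (rad_pos k).le r)
  linarith

lemma pairs_att_le_comb {τ τ₁ τ₂ : ℕ → ℝ} (hτ : Adm τ) (h₁ : Adm τ₁) (h₂ : Adm τ₂) {a b : ℝ}
    (h : ∀ k, τ k ≤ a * τ₁ k + b * τ₂ k) (x : Fin N → E3) :
    pairs x (att τ) ≤ a * pairs x (att τ₁) + b * pairs x (att τ₂) := by
  simp only [pairs, Finset.mul_sum, ← Finset.sum_add_distrib]
  exact Finset.sum_le_sum fun i _ => Finset.sum_le_sum fun j _ => att_le_comb hτ h₁ h₂ h _

/-- Convexity and monotonicity of the pressure. -/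
lemma press_mix {τ τ₁ τ₂ : ℕ → ℝ} (hτ : Adm τ) (h₁ : Adm τ₁) (h₂ : Adm τ₂) {ν ν₁ ν₂ θ : ℝ}
    (h0 : 0 ≤ θ) (h1 : θ ≤ 1) (hν : ν ≤ (1 - θ) * ν₁ + θ * ν₂)
    (h : ∀ k, τ k ≤ (1 - θ) * τ₁ k + θ * τ₂ k) :
    press τ ν ≤ (1 - θ) * press τ₁ ν₁ + θ * press τ₂ ν₂ := by
  refine le_of_tendsto_of_tendsto (tendsto_press hτ ν)
    (((tendsto_press h₁ ν₁).const_mul (1 - θ)).add ((tendsto_press h₂ ν₂).const_mul θ)) ?_
  filter_upwards [eventually_gt_atTop (0 : ℝ)] with L hL
  rw [← mul_div_assoc, ← mul_div_assoc, ← add_div]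
  refine div_le_div_of_nonneg_right ?_ (by positivity)
  refine logXi_mix one_pos one_pos one_pos hτ h₁ h₂ h0 h1 L (fun N x _ => ?_)
  simp only [en_conf_ptl]
  have hA := pairs_att_le_comb hτ h₁ h₂ h x
  have hN : ν * (N : ℝ) ≤ ((1 - θ) * ν₁ + θ * ν₂) * N :=
    mul_le_mul_of_nonneg_right hν (Nat.cast_nonneg _)
  nlinarith

lemma image_cell_card {l : ℕ} {x : Fin N → E3} (hx : ∀ i, x i ∈ box l) :
    ((Finset.univ.image (fun i => cell (x i))).card : ℝ) ≤ ((l : ℝ) + 1) ^ 3 := by
  have hsub : Finset.univ.image (fun i => cell (x i))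
      ⊆ Fintype.piFinset (fun _ : Fin 3 => Finset.Icc (0 : ℤ) l) := by
    intro b hb
    obtain ⟨i, -, rfl⟩ := Finset.mem_image.1 hb
    rw [Fintype.mem_piFinset]
    intro c
    have := hx i c
    rw [Finset.mem_Icc]
    exact ⟨Int.floor_nonneg.2 this.1, Int.cast_le.1 ((Int.floor_le _).trans (by simpa using this.2))⟩
  have := Finset.card_le_card hsub
  simp only [Fintype.card_piFinset, Int.card_Icc, Finset.prod_const, Finset.card_univ,
    Fintype.card_fin, sub_zero] at this
  rw [show ((l : ℤ) + 1).toNat = l + 1 by omega] at this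
  exact_mod_cast this

/-- Sub-quadratic growth of the pressure in the chemical potential. -/
lemma exists_press_growth {ε : ℝ} (hε : 0 < ε) (T V : ℝ) :
    ∃ C : ℝ, ∀ τ : ℕ → ℝ, Adm τ → tot τ ≤ T → ∀ ν ≤ V, ∀ a : ℝ,
      press τ (ν + a) ≤ C + ε * a ^ 2 := by
  set M := 1 / (4 * ε) with hM
  have hMpos : 0 < M := by positivity
  obtain ⟨B, -, hB⟩ := exists_core_bound (κ := 1) one_pos (2 * T + 2 * M)
  refine ⟨Real.exp (B / 2 + V), fun τ hτ hT ν hν a => press_le _ (fun l => ?_)⟩
  have hl3 : (l : ℝ) ^ 3 ≤ ((l : ℝ) + 1) ^ 3 := by gcongr; linarith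
  refine le_trans (logXi_le_of one_pos hτ (gint_le_exp (Q := ((l : ℝ) + 1) ^ 3 * (ε * a ^ 2))
    (B := B / 2 + V) (measurableSet_box _) (pow_nonneg (Nat.cast_nonneg l) 3)
    (volume_box (Nat.cast_nonneg l)).le (fun N x hx hxA => ?_))) ?_
  · refine ENNReal.ofReal_le_ofReal (Real.exp_le_exp.2 ?_)
    rw [en_conf_ptl]
    have h1 := pairs_att_le hτ x
    have h2 := hB N x hx
    have h3 : 2 * tot τ * same (fun i => cell (x i)) ≤ 2 * T * same (fun i => cell (x i)) :=
      mul_le_mul_of_nonneg_right (by linarith) (same_nonneg _)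
    have h4 : ν * (N : ℝ) ≤ V * N := mul_le_mul_of_nonneg_right hν (Nat.cast_nonneg _)
    have hN : (N : ℝ) = ∑ b ∈ Finset.univ.image (fun i => cell (x i)),
        ((Finset.univ.filter (fun i => cell (x i) = b)).card : ℝ) := by
      rw [← Nat.cast_sum, ← Finset.card_eq_sum_card_fiberwise
        (fun i _ => Finset.mem_image_of_mem _ (Finset.mem_univ i))]
      simp
    have h5 : a * (N : ℝ) ≤ M * same (fun i => cell (x i)) + ((l : ℝ) + 1) ^ 3 * (ε * a ^ 2) := by
      have h6 : ((Finset.univ.image (fun i => cell (x i))).card : ℝ) * (ε * a ^ 2)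
          ≤ ((l : ℝ) + 1) ^ 3 * (ε * a ^ 2) :=
        mul_le_mul_of_nonneg_right (image_cell_card hxA) (by positivity)
      refine le_trans ?_ (add_le_add_right h6 _)
      rw [same_eq_sum_sq, hN, Finset.mul_sum, Finset.mul_sum, ← nsmul_eq_mul, ← Finset.sum_const,
        ← Finset.sum_add_distrib]
      refine Finset.sum_le_sum (fun b _ => ?_)
      generalize ((Finset.univ.filter (fun i => cell (x i) = b)).card : ℝ) = n
      rw [hM, div_mul_eq_mul_div, one_mul, ← sub_le_iff_le_add, le_div_iff₀ (by positivity)]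
      nlinarith [sq_nonneg (n - 2 * ε * a)]
    nlinarith
  · have he := (Real.exp_pos (B / 2 + V)).le
    nlinarith [mul_le_mul_of_nonneg_right hl3 he]

lemma exists_press_bound (T V : ℝ) :
    ∃ C : ℝ, 0 ≤ C ∧ ∀ τ : ℕ → ℝ, Adm τ → tot τ ≤ T → ∀ ν ≤ V, press τ ν ≤ C := by
  obtain ⟨C, hC, hb⟩ := exists_logXi_bound one_pos T V
  refine ⟨C, hC, fun τ hτ hT ν hν => press_le _ (fun l => ?_)⟩
  refine (hb τ hτ hT ν hν l (Nat.cast_nonneg _)).trans ?_
  gcongr; linarith

/-- Local Lipschitz-type bound. -/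
lemma press_sub_le {τ σ : ℕ → ℝ} (hτ : Adm τ) (hσ : Adm σ) {ν ω θ : ℝ} (h0 : 0 < θ) (h1 : θ ≤ 1)
    (hν : |ν - ω| ≤ θ) (hs : ∑' k, |τ k - σ k| ≤ θ) {C : ℝ}
    (hC : ∀ u : ℕ → ℝ, Adm u → tot u ≤ tot σ + 1 → ∀ y ≤ ω + 1, press u y ≤ C) :
    press τ ν ≤ press σ ω + θ * C := by
  set u : ℕ → ℝ := fun k => σ k + |τ k - σ k| / θ
  have hd : Summable (fun k => |τ k - σ k|) := (hτ.2.sub hσ.2).abs
  have hu : Adm u :=
    ⟨fun k => add_nonneg (hσ.1 k) (div_nonneg (abs_nonneg _) h0.le), hσ.2.add (hd.div_const θ)⟩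
  have htot : tot u ≤ tot σ + 1 := by
    simp only [tot, u]
    rw [hσ.2.tsum_add (hd.div_const θ), tsum_div_const]
    have : (∑' k, |τ k - σ k|) / θ ≤ 1 := by rw [div_le_one h0]; exact hs
    linarith
  have hy : ω + |ν - ω| / θ ≤ ω + 1 := by
    have : |ν - ω| / θ ≤ 1 := by rw [div_le_one h0]; exact hν
    linarith
  have hm := press_mix hτ hσ hu (ν := ν) (ν₁ := ω) (ν₂ := ω + |ν - ω| / θ) h0.le h1 ?_ ?_
  · have := hC u hu htot _ hy
    have hnn := press_nonneg hσ ω
    nlinarith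
  · rw [mul_add, mul_div_cancel₀ _ h0.ne']
    linarith [le_abs_self (ν - ω)]
  · intro k
    simp only [u]
    rw [mul_add, mul_div_cancel₀ _ h0.ne']
    linarith [le_abs_self (τ k - σ k)]

/-! Trial configuration. -/

lemma dist_le_two {x y : E3} (h : ∀ i, |x i - y i| ≤ 1) : dist x y ≤ 2 := by
  rw [EuclideanSpace.dist_eq, Real.sqrt_le_iff]
  refine ⟨by norm_num, ?_⟩
  simp only [Fin.sum_univ_three, Real.dist_eq, sq_abs]
  have h0 := sq_le_one_iff_abs_le_one _ |>.2 (h 0)
  have h1 := sq_le_one_iff_abs_le_one _ |>.2 (h 1)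
  have h2 := sq_le_one_iff_abs_le_one _ |>.2 (h 2)
  linarith

/-- Twice an integer vector. -/
noncomputable def dbl (v : Fin 3 → ℤ) : E3 := vec (fun c => 2 * (v c : ℝ))

/-- Neighbour offsets used in the trial configuration. -/
noncomputable def offs (R : ℝ) : Finset (Fin 3 → ℤ) :=
  (Fintype.piFinset (fun _ : Fin 3 => Finset.Icc (-(⌈R⌉₊ : ℤ)) ⌈R⌉₊)).filter
    (fun v => v ≠ 0 ∧ ‖dbl v‖ < R - 2)

lemma offs_card {R : ℝ} (hR : 96 ≤ R) (hR' : 64 / v1 ≤ R) :
    3 / 32 ≤ (v1 * R ^ 3)⁻¹ * ((offs R).card : ℝ) := by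
  have hv := v1_pos
  set o : Fin 3 → ℝ := fun _ => 1
  have hcover : ball (0 : E3) (R - 4) ⊆ ⋃ b ∈ insert 0 (offs R), gridCube 2 o b := by
    intro z hz
    set b := grid 2 o z
    have hb := (mem_gridCube (two_pos : (0 : ℝ) < 2)).2 (rfl : grid 2 o z = b)
    refine mem_iUnion₂.2 ⟨b, ?_, hb⟩
    by_cases h0 : b = 0
    · exact h0 ▸ Finset.mem_insert_self _ _
    have hd : dist (dbl b) z ≤ 2 := dist_le_two (fun i => by
      have := hb i
      simp only [o, Set.mem_Ico] at this
      simp only [dbl, vec_apply, abs_le]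
      constructor <;> linarith [this.1, this.2])
    rw [mem_ball] at hz
    have hn : ‖dbl b‖ < R - 2 := by
      rw [← dist_zero_right]
      linarith [dist_triangle (dbl b) z 0]
    refine Finset.mem_insert_of_mem (Finset.mem_filter.2 ⟨?_, h0, hn⟩)
    rw [Fintype.mem_piFinset]
    intro c
    have h2 : |2 * (b c : ℝ)| ≤ ‖dbl b‖ := by
      have := abs_sub_le_dist (dbl b) 0 c
      simpa [dbl, dist_zero_right] using this
    rw [Finset.mem_Icc, ← abs_le]
    have : |(b c : ℝ)| ≤ (⌈R⌉₊ : ℝ) := by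
      have := Nat.le_ceil R
      rw [abs_mul, abs_two] at h2
      linarith [abs_nonneg (b c : ℝ)]
    exact_mod_cast this
  have h := (measure_mono (μ := (volume : Measure E3)) hcover).trans
    (measure_biUnion_finset_le _ _)
  rw [volume_ball_eq _ (by linarith)] at h
  simp only [volume_gridCube (zero_le_two : (0 : ℝ) ≤ 2), Finset.sum_const, nsmul_eq_mul,
    ← ENNReal.ofReal_natCast] at h
  rw [← ENNReal.ofReal_mul (Nat.cast_nonneg _), ENNReal.ofReal_le_ofReal_iff (by positivity)] at h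
  have hc : ((insert 0 (offs R)).card : ℝ) ≤ (offs R).card + 1 := by
    exact_mod_cast Finset.card_insert_le _ _
  rw [inv_mul_eq_div, le_div_iff₀ (by positivity)]
  rw [div_le_iff₀ hv] at hR'
  nlinarith [mul_le_mul_of_nonneg_right hc (by norm_num : (0:ℝ) ≤ 2 ^ 3),
    mul_le_mul_of_nonneg_right hR (by positivity : (0:ℝ) ≤ R ^ 2 * v1)]

open Classical in
lemma press_trial {τ : ℕ → ℝ} (hτ : Adm τ) (ν : ℝ) :
    ν / 8 + 3 / 512 * tot τ ≤ press τ ν := by
  suffices h : ∀ K : ℕ, ν / 8 + 3 / 512 * ∑ n ∈ Finset.range K, τ n ≤ press τ ν by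
    refine le_of_tendsto ((hτ.2.hasSum.tendsto_sum_nat.const_mul (3 / 512)).const_add (ν / 8)) ?_
    exact Eventually.of_forall h
  intro K
  set m : ℕ → ℕ := fun n => ⌈rad n⌉₊
  have hlim : Tendsto (fun k : ℕ => (ν * (k : ℝ) ^ 3
      + 3 / 64 * ∑ n ∈ Finset.range K, τ n * ((k - 2 * m n : ℕ) : ℝ) ^ 3) / (2 * (k : ℝ)) ^ 3)
      atTop (𝓝 (ν / 8 + 3 / 512 * ∑ n ∈ Finset.range K, τ n)) := by
    have h1 : ∀ c : ℕ, Tendsto (fun k : ℕ => ((k - c : ℕ) : ℝ) / k) atTop (𝓝 1) := by
      intro c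
      have : Tendsto (fun k : ℕ => 1 - (c : ℝ) / k) atTop (𝓝 1) := by
        simpa using (tendsto_const_div_atTop_nhds_zero_nat (c : ℝ)).const_sub 1
      refine this.congr' ?_
      filter_upwards [eventually_ge_atTop (c + 1)] with k hk
      have : (0 : ℝ) < k := by exact_mod_cast (by omega : 0 < k)
      rw [Nat.cast_sub (by omega)]
      field_simp
    have h2 : Tendsto (fun k : ℕ => ν / 8
        + 3 / 512 * ∑ n ∈ Finset.range K, τ n * (((k - 2 * m n : ℕ) : ℝ) / k) ^ 3)
        atTop (𝓝 (ν / 8 + 3 / 512 * ∑ n ∈ Finset.range K, τ n)) := by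
      simpa using ((tendsto_finsetSum (Finset.range K)
        (fun n _ => ((h1 (2 * m n)).pow 3).const_mul (τ n))).const_mul (3 / 512)).const_add (ν / 8)
    refine h2.congr' ?_
    filter_upwards [eventually_gt_atTop 0] with k hk
    have : (0 : ℝ) < k := by exact_mod_cast hk
    simp only [Finset.mul_sum, add_div, Finset.sum_div]
    congr 1
    · field_simp; ring
    · refine Finset.sum_congr rfl (fun n _ => ?_)
      field_simp; ring
  refine le_of_tendsto_of_tendsto hlim ((tendsto_press hτ ν).comp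
    ((tendsto_natCast_atTop_atTop (R := ℝ)).const_mul_atTop two_pos)) ?_
  refine Eventually.of_forall (fun k => ?_)
  simp only [Function.comp_apply]
  refine div_le_div_of_nonneg_right (le_logXi_of one_pos hτ ?_) (by positivity)
  set Q := ν * (k : ℝ) ^ 3 + 3 / 64 * ∑ n ∈ Finset.range K, τ n * ((k - 2 * m n : ℕ) : ℝ) ^ 3
    with hQ
  set S : (Fin 3 → Fin k) → Set E3 := fun p => shift (site 2 p) (box 1)
  have hSm : ∀ p, MeasurableSet (S p) := fun p =>
    (measurableSet_box 1).preimage (measurable_id.sub_const _)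
  have hd : ((Finset.univ : Finset (Fin 3 → Fin k)) : Set (Fin 3 → Fin k)).PairwiseDisjoint S := by
    intro p _ q _ hpq
    exact Set.disjoint_left.2 (fun x hx hx' => by
      have := sites_dist (s := 2) (by norm_num) zero_le_one hpq hx hx'
      simp at this; linarith)
  set g : (Fin 3 → Fin k) → Multiset E3 → ℝ≥0∞ :=
    fun _ mm => if Multiset.card mm = 1 then 1 else 0 with hg
  have hgm : ∀ p, MeasG (g p) := fun p N => by simp only [hg, conf_card]; exact measurable_const
  have hU := gint_biUnion (Finset.univ : Finset (Fin 3 → Fin k)) (S := S) (fun p _ => hSm p) hd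
    (f := g) (fun p _ => hgm p)
  have hterm : ∀ p, gint (S p) (g p) = 1 := by
    intro p
    rw [gint_shift _ (by simp [hg]), gint, tsum_eq_single 1]
    · simp [hg, cint, conf_card, volume_pi_pi, volume_box]
    · intro n hn
      simp [hg, cint, conf_card, hn]
  simp only [hterm, Finset.prod_const_one] at hU
  calc ENNReal.ofReal (Real.exp Q)
      = gint (⋃ p ∈ (Finset.univ : Finset (Fin 3 → Fin k)), S p) (fun mm =>
          ENNReal.ofReal (Real.exp Q) * ∏ p, g p (mm.filter (· ∈ S p))) := by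
        rw [gint_const_mul _ ENNReal.ofReal_ne_top, hU, mul_one]
    _ ≤ gint (⋃ p ∈ (Finset.univ : Finset (Fin 3 → Fin k)), S p) (wt (ptl 1 τ) ν) := ?_
    _ ≤ _ := gint_mono_set (Set.iUnion₂_subset fun p _ =>
          sites_subset zero_le_one (by norm_num) p) _
  refine gint_mono (Finset.measurableSet_biUnion _ fun p _ => hSm p) (fun N x _ hxS => ?_)
  by_cases hone : ∀ p, Multiset.card ((conf x).filter (· ∈ S p)) = 1
  swap
  · push_neg at hone
    obtain ⟨p, hp⟩ := hone
    have : (∏ p, g p ((conf x).filter (· ∈ S p))) = 0 :=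
      Finset.prod_eq_zero (Finset.mem_univ p) (by simp [hg, hp])
    rw [this, mul_zero]
    exact zero_le
  have hprod : (∏ p, g p ((conf x).filter (· ∈ S p))) = 1 :=
    Finset.prod_eq_one (fun p _ => by simp [hg, hone p])
  rw [hprod, mul_one]
  refine ENNReal.ofReal_le_ofReal (Real.exp_le_exp.2 ?_)
  have hcard : ∀ p, (Finset.univ.filter (fun i => x i ∈ S p)).card = 1 := by
    intro p
    have := hone p
    rw [conf_filter, Multiset.card_map] at this
    exact this
  have hj : ∀ p, ∃ i, x i ∈ S p := fun p => by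
    obtain ⟨i, hi⟩ := Finset.card_pos.1 (by rw [hcard p]; norm_num :
      0 < (Finset.univ.filter (fun i => x i ∈ S p)).card)
    exact ⟨i, (Finset.mem_filter.1 hi).2⟩
  choose j hjS using hj
  have hjinj : Function.Injective j := fun p q h => by
    by_contra hne
    exact Set.disjoint_left.1 (hd (Finset.mem_univ p) (Finset.mem_univ q) hne) (hjS p) (h ▸ hjS q)
  have hjsurj : Function.Surjective j := fun i => by
    obtain ⟨p, hp⟩ : ∃ p, x i ∈ S p := by simpa using hxS i
    refine ⟨p, Finset.card_le_one.1 (hcard p).le _ ?_ _ ?_⟩ <;> simp [hjS p, hp]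
  have hN : (N : ℝ) = (k : ℝ) ^ 3 := by
    have := Fintype.card_congr (Equiv.ofBijective j ⟨hjinj, hjsurj⟩)
    simp only [Fintype.card_fun, Fintype.card_fin] at this
    rw [← this]; push_cast; rfl
  have hcore : pairs x core = 0 := by
    refine Finset.sum_eq_zero (fun i _ => Finset.sum_eq_zero (fun i' _ => ?_))
    obtain ⟨p, rfl⟩ := hjsurj i
    obtain ⟨q, rfl⟩ := hjsurj i'
    by_cases h : p = q
    · subst h; rw [dist_self, core_zero]
    · exact core_zero_of_one_le (sites_dist (by norm_num) zero_le_one h (hjS p) (hjS q))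
  have hkern : ∀ n, 3 / 32 * ((k - 2 * m n : ℕ) : ℝ) ^ 3 ≤ pairs x (kern (rad n)) := by
    intro n
    set R := rad n with hRdef
    have hR : 96 ≤ R := rad_ge n
    have hR' : 64 / v1 ≤ R := le_trans (le_max_right _ _)
      (le_mul_of_one_le_right (le_trans (by norm_num) rad0_ge) (one_le_pow₀ (by norm_num)))
    set I : Finset (Fin 3 → Fin k) :=
      Fintype.piFinset (fun _ : Fin 3 => Finset.univ.filter
        (fun a : Fin k => m n ≤ (a : ℕ) ∧ (a : ℕ) < k - m n))
    have hIcard : ((k - 2 * m n : ℕ) : ℝ) ^ 3 ≤ (I.card : ℝ) := by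
      have h1 : k - 2 * m n ≤ (Finset.univ.filter
          (fun a : Fin k => m n ≤ (a : ℕ) ∧ (a : ℕ) < k - m n)).card := by
        have h2 : (Finset.Ico (m n) (k - m n)) ⊆ (Finset.univ.filter
            (fun a : Fin k => m n ≤ (a : ℕ) ∧ (a : ℕ) < k - m n)).map Fin.valEmbedding := by
          intro a ha
          rw [Finset.mem_Ico] at ha
          exact Finset.mem_map.2 ⟨⟨a, by omega⟩, by simp [ha.1, ha.2], rfl⟩
        have := Finset.card_le_card h2
        rw [Finset.card_map, Nat.card_Ico] at this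
        omega
      simp only [I, Fintype.card_piFinset, Finset.prod_const, Finset.card_univ, Fintype.card_fin]
      exact_mod_cast Nat.pow_le_pow_left h1 3
    have hrow : ∀ p ∈ I, 3 / 32 ≤ ∑ i', kern R (dist (x (j p)) (x i')) := by
      intro p hp
      rw [Fintype.mem_piFinset] at hp
      have hb : ∀ v ∈ offs R, ∀ c, 0 ≤ ((p c : ℕ) : ℤ) + v c ∧ ((p c : ℕ) : ℤ) + v c < k := by
        intro v hv c
        have h1 := (Fintype.mem_piFinset.1 (Finset.mem_filter.1 hv).1) c
        rw [Finset.mem_Icc] at h1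
        have h2 := hp c
        simp only [Finset.mem_filter, Finset.mem_univ, true_and, m, ← hRdef] at h2
        omega
      set q : {v // v ∈ offs R} → Fin 3 → Fin k :=
        fun v c => ⟨(((p c : ℕ) : ℤ) + v.1 c).toNat, by have := hb v.1 v.2 c; omega⟩
      have hq : ∀ v c, (((q v c : Fin k) : ℕ) : ℤ) = ((p c : ℕ) : ℤ) + v.1 c := by
        intro v c
        have := hb v.1 v.2 c
        simp only [q]
        omega
      have hqinj : Function.Injective (fun v => j (q v)) := by
        intro v w h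
        refine Subtype.ext (funext fun c => ?_)
        have h1 := hq v c
        rw [hjinj h, hq w c] at h1
        linarith
      have hv1 : ∀ v, (v1 * R ^ 3)⁻¹ ≤ kern R (dist (x (j p)) (x (j (q v)))) := by
        intro v
        have hne : p ≠ q v := by
          intro h
          refine (Finset.mem_filter.1 v.2).2.1 (funext fun c => ?_)
          have := hq v c
          rw [← h] at this
          simpa using this.symm
        have hpos := sites_dist (s := 2) (by norm_num) zero_le_one hne (hjS p) (hjS (q v))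
        have hlt : dist (x (j p)) (x (j (q v))) < R := by
          have h1 : dist (x (j p) + dbl v.1) (x (j (q v))) ≤ 2 := dist_le_two (fun c => by
            have a := mem_shift_site.1 (hjS p) c
            have b := mem_shift_site.1 (hjS (q v)) c
            have e : (((q v c : Fin k) : ℕ) : ℝ) = ((p c : ℕ) : ℝ) + (v.1 c : ℝ) := by
              exact_mod_cast hq v c
            simp only [PiLp.add_apply, dbl, vec_apply, abs_le]
            constructor <;> linarith [a.1, a.2, b.1, b.2])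
          have h2 : ‖dbl v.1‖ < R - 2 := (Finset.mem_filter.1 v.2).2.2
          have h3 := dist_triangle (x (j p)) (x (j p) + dbl v.1) (x (j (q v)))
          rw [dist_self_add_right] at h3
          linarith
        rw [kern, if_pos ⟨by linarith, hlt⟩]
      calc (3 : ℝ) / 32 ≤ (v1 * R ^ 3)⁻¹ * ((offs R).card : ℝ) := offs_card hR hR'
        _ = ∑ v : {v // v ∈ offs R}, (v1 * R ^ 3)⁻¹ := by simp [mul_comm]
        _ ≤ ∑ v : {v // v ∈ offs R}, kern R (dist (x (j p)) (x (j (q v)))) :=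
            Finset.sum_le_sum (fun v _ => hv1 v)
        _ = ∑ i' ∈ Finset.univ.image (fun v => j (q v)), kern R (dist (x (j p)) (x i')) :=
            (Finset.sum_image (f := fun i' => kern R (dist (x (j p)) (x i'))) hqinj.injOn).symm
        _ ≤ _ := Finset.sum_le_univ_sum_of_nonneg (fun i' => kern_nonneg (by linarith) _)
    calc 3 / 32 * ((k - 2 * m n : ℕ) : ℝ) ^ 3 ≤ ∑ _p ∈ I, (3 / 32 : ℝ) := by
          rw [Finset.sum_const, nsmul_eq_mul]; linarith
      _ ≤ ∑ p ∈ I, ∑ i', kern R (dist (x (j p)) (x i')) := Finset.sum_le_sum hrow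
      _ = ∑ i ∈ I.image j, ∑ i', kern R (dist (x i) (x i')) :=
          (Finset.sum_image (f := fun i => ∑ i', kern R (dist (x i) (x i'))) hjinj.injOn).symm
      _ ≤ _ := Finset.sum_le_univ_sum_of_nonneg
          (fun i => Finset.sum_nonneg fun i' _ => kern_nonneg (by linarith) _)
  have hatt : 3 / 32 * ∑ n ∈ Finset.range K, τ n * ((k - 2 * m n : ℕ) : ℝ) ^ 3
      ≤ pairs x (att τ) := by
    refine le_trans ?_ (sum_le_hasSum (Finset.range K) (fun n _ => mul_nonneg (hτ.1 n)
      (Finset.sum_nonneg fun i _ => Finset.sum_nonneg fun i' _ => kern_nonneg (rad_pos n).le _))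
      (pairs_att hτ x))
    rw [Finset.mul_sum]
    refine Finset.sum_le_sum (fun n _ => ?_)
    have := mul_le_mul_of_nonneg_left (hkern n) (hτ.1 n)
    show _ ≤ τ n * pairs x (kern (rad n))
    linarith
  rw [en_conf_ptl, hcore, hQ, hN]
  linarith

lemma press_lower {τ : ℕ → ℝ} (hτ : Adm τ) (ν : ℝ) :
    ν / 16 + 3 / 1024 * tot τ ≤ press τ ν := by
  have h1 := press_trial hτ ν
  have h2 := press_nonneg hτ ν
  linarith

end Vale.Agent.P171
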