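import Vale.Agent.P171.Upper

/-!
Ekeland's variational principle and a point of non-differentiability of the pressure.
-/

namespace Vale.Agent.P171

open MeasureTheory Set Filter Metric
open scoped ENNReal Topology

/-- Ekeland's variational principle for a nonnegative continuous function. -/
lemma ekeland {X : Type} [MetricSpace X] [CompleteSpace X] [Nonempty X] (F : X → ℝ)
    (hF : Continuous F) (h0 : ∀ x, 0 ≤ F x) {ε : ℝ} (hε : 0 < ε) :
    ∃ x, ∀ y, F x ≤ F y + ε * dist x y := by
  classical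
  set S : X → Set X := fun x => {y | F y + ε * dist x y ≤ F x} with hS
  have hxS : ∀ x, x ∈ S x := fun x => by simp [hS]
  have hnext : ∀ (n : ℕ) (x : X), ∃ y ∈ S x, ∀ y' ∈ S x, F y ≤ F y' + 1 / ((n : ℝ) + 1) := by
    intro n x
    obtain ⟨_, ⟨y, hy, rfl⟩, hlt⟩ := Real.lt_sInf_add_pos (s := F '' S x)
      ⟨F x, x, hxS x, rfl⟩ (show (0 : ℝ) < 1 / ((n : ℝ) + 1) by positivity)
    refine ⟨y, hy, fun y' hy' => ?_⟩
    have : sInf (F '' S x) ≤ F y' :=
      csInf_le ⟨0, by rintro _ ⟨z, -, rfl⟩; exact h0 z⟩ ⟨y', hy', rfl⟩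
    linarith
  choose next hmem hinf using hnext
  let x : ℕ → X := fun n => Nat.rec (Classical.arbitrary X) (fun i xi => next i xi) n
  have hx : ∀ n, x (n + 1) = next n (x n) := fun _ => rfl
  have hstep : ∀ n, F (x (n + 1)) + ε * dist (x n) (x (n + 1)) ≤ F (x n) := fun n => hmem n (x n)
  have hchain : ∀ n p, F (x (n + p)) + ε * dist (x n) (x (n + p)) ≤ F (x n) := by
    intro n p
    induction p with
    | zero => simp
    | succ p ih =>
      have h1 := hstep (n + p)
      have h2 := mul_le_mul_of_nonneg_left (dist_triangle (x n) (x (n + p)) (x (n + p + 1))) hε.le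
      show F (x (n + p + 1)) + ε * dist (x n) (x (n + p + 1)) ≤ F (x n)
      linarith
  have hanti : Antitone (fun n => F (x n)) := antitone_nat_of_succ_le (fun n => by
    have h2 : 0 ≤ ε * dist (x n) (x (n + 1)) := by positivity
    linarith [hstep n])
  have hbdd : BddBelow (Set.range fun n => F (x n)) := ⟨0, by rintro _ ⟨n, rfl⟩; exact h0 _⟩
  have hlim := tendsto_atTop_ciInf hanti hbdd
  set a := ⨅ n, F (x n)
  have hC : CauchySeq x := by
    refine cauchySeq_of_le_tendsto_0 (fun n => 2 * ((F (x n) - a) / ε)) (fun n m N hn hm => ?_) ?_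
    · have key : ∀ n, N ≤ n → dist (x N) (x n) ≤ (F (x N) - a) / ε := by
        intro n hn
        obtain ⟨p, rfl⟩ := Nat.exists_eq_add_of_le hn
        rw [le_div_iff₀ hε]
        have := hchain N p
        have : a ≤ F (x (N + p)) := ciInf_le hbdd _
        linarith
      have := dist_triangle_left (x n) (x m) (x N)
      have := key n hn
      have := key m hm
      linarith
    · have := ((hlim.sub_const a).div_const ε).const_mul 2
      simpa using this
  obtain ⟨z, hz⟩ := cauchySeq_tendsto_of_complete hC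
  have hzS : ∀ n, F z + ε * dist (x n) z ≤ F (x n) := by
    intro n
    refine le_of_tendsto (((hF.tendsto z).comp hz).add
      ((tendsto_const_nhds.dist hz).const_mul ε)) ?_
    filter_upwards [eventually_ge_atTop n] with m hm
    obtain ⟨p, rfl⟩ := Nat.exists_eq_add_of_le hm
    exact hchain n p
  refine ⟨z, fun y => le_of_not_gt (fun hy => ?_)⟩
  have hy' : ∀ n : ℕ, F z ≤ F y + 1 / ((n : ℝ) + 1) := by
    intro n
    have hyS : y ∈ S (x n) := by
      have h2 := mul_le_mul_of_nonneg_left (dist_triangle (x n) z y) hε.le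
      show F y + ε * dist (x n) y ≤ F (x n)
      linarith [hzS n]
    have h3 := hinf n (x n) y hyS
    rw [← hx] at h3
    have h4 := hzS (n + 1)
    have : 0 ≤ ε * dist (x (n + 1)) z := by positivity
    linarith
  have : F z ≤ F y := by
    have ht : Tendsto (fun n : ℕ => F y + 1 / ((n : ℝ) + 1)) atTop (𝓝 (F y)) := by
      simpa using (tendsto_one_div_add_atTop_nhds_zero_nat (𝕜 := ℝ)).const_add (F y)
    exact ge_of_tendsto ht (Eventually.of_forall hy')
  have : 0 ≤ ε * dist z y := by positivity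
  linarith

/-- Absolutely summable sequences. -/
abbrev L1 : Type := lp (fun _ : ℕ => ℝ) 1

/-- The nonnegative cone of absolutely summable sequences. -/
def cone : Set L1 := {t | ∀ k, 0 ≤ (t : ∀ _ : ℕ, ℝ) k}

lemma isClosed_cone : IsClosed cone := by
  have : cone = ⋂ k : ℕ, {t : L1 | 0 ≤ (t : ∀ _ : ℕ, ℝ) k} := by ext t; simp [cone]
  rw [this]
  exact isClosed_iInter (fun k => isClosed_le continuous_const (lp.lipschitzWith_one_eval 1 k).continuous)

instance : CompleteSpace cone := isClosed_cone.completeSpace_coe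

instance : Nonempty cone := ⟨⟨0, fun k => by simp⟩⟩

lemma summable_L1 (t : L1) : Summable (fun k => (t : ∀ _ : ℕ, ℝ) k) := by
  have h := (lp.memℓp t).summable (by simp : (0 : ℝ) < (1 : ℝ≥0∞).toReal)
  simpa using Summable.of_norm (by simpa using h)

lemma norm_L1 (t : L1) : ‖t‖ = ∑' k, |(t : ∀ _ : ℕ, ℝ) k| := by
  rw [lp.norm_eq_tsum_rpow (by simp : (0 : ℝ) < (1 : ℝ≥0∞).toReal)]
  simp

/-- The weights of a point of the cone. -/
def wts (t : cone) : ℕ → ℝ := fun k => ((t : L1) : ∀ _ : ℕ, ℝ) k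

lemma adm_wts (t : cone) : Adm (wts t) := ⟨t.2, summable_L1 _⟩

lemma dist_wts (t u : cone) : ∑' k, |wts t k - wts u k| = dist t u := by
  rw [Subtype.dist_eq, dist_eq_norm, norm_L1]
  exact tsum_congr (fun k => by simp [wts])

/-- The shifted pressure. -/
noncomputable def excess (z : ℝ × cone) : ℝ :=
  press (wts z.2) z.1 - z.1 / 16 - 3 / 1024 * tot (wts z.2)

lemma excess_nonneg (z : ℝ × cone) : 0 ≤ excess z := by
  have := press_lower (adm_wts z.2) z.1
  unfold excess
  linarith

lemma continuous_press : Continuous (fun z : ℝ × cone => press (wts z.2) z.1) := by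
  rw [continuous_iff_continuousAt]
  intro z
  obtain ⟨C, hC0, hC⟩ := exists_press_bound (tot (wts z.2) + 2) (z.1 + 2)
  rw [ContinuousAt, Metric.tendsto_nhds_nhds]
  intro ε hε
  refine ⟨min 1 (ε / (C + 1)), by positivity, fun {y} hy => ?_⟩
  by_cases hd0 : dist y z = 0
  · rw [dist_eq_zero.1 hd0, dist_self]; exact hε
  set d := dist y z
  have hd : 0 < d := lt_of_le_of_ne dist_nonneg (Ne.symm hd0)
  have hd1 : d ≤ 1 := hy.le.trans (min_le_left _ _)
  have h1 : |y.1 - z.1| ≤ d := by
    rw [← Real.dist_eq]; exact le_max_left _ _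
  have h2 : ∑' k, |wts y.2 k - wts z.2 k| ≤ d := by
    rw [dist_wts]; exact le_max_right _ _
  have htot : tot (wts y.2) ≤ tot (wts z.2) + 1 := by
    have hs := ((adm_wts y.2).2.sub (adm_wts z.2).2)
    have := hs.tsum_le_tsum (fun k => le_abs_self _) hs.abs
    rw [(adm_wts y.2).2.tsum_sub (adm_wts z.2).2] at this
    unfold tot
    linarith
  have hy1 : y.1 ≤ z.1 + 1 := by linarith [le_abs_self (y.1 - z.1)]
  have u1 := press_sub_le (adm_wts y.2) (adm_wts z.2) hd hd1 h1 h2
    (C := C) (fun u hu hu' v hv => hC u hu (by linarith) v (by linarith))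
  have u2 := press_sub_le (adm_wts z.2) (adm_wts y.2) (ν := z.1) (ω := y.1) hd hd1
    (by rwa [abs_sub_comm]) (le_trans (le_of_eq (tsum_congr fun k => abs_sub_comm _ _)) h2)
    (C := C) (fun u hu hu' v hv => hC u hu (by linarith) v (by linarith))
  rw [Real.dist_eq]
  have h3 : d * (C + 1) < ε := by
    have := hy.trans_le (min_le_right _ _)
    rwa [lt_div_iff₀ (by positivity)] at this
  have : d * C ≤ d * (C + 1) := by linarith
  exact (abs_le.2 ⟨by linarith, by linarith⟩ : |_| ≤ d * C).trans_lt (lt_of_le_of_lt this h3)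

lemma continuous_excess : Continuous excess := by
  have h : Continuous (fun t : cone => tot (wts t)) := by
    have : (fun t : cone => tot (wts t)) = fun t : cone => ‖(t : L1)‖ := by
      funext t
      rw [norm_L1]
      exact tsum_congr (fun k => (abs_of_nonneg (t.2 k)).symm)
    rw [this]
    exact continuous_norm.comp continuous_subtype_val
  exact (continuous_press.sub (continuous_fst.div_const 16)).sub
    ((h.comp continuous_snd).const_mul _)

/-- A point with nearly supporting behaviour. -/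
lemma exists_special_point :
    ∃ (τ : ℕ → ℝ) (μ : ℝ), Adm τ ∧
      (∀ h : ℝ, 0 ≤ h → press τ μ ≤ press τ (μ - h) + (1 / 16 + 1 / 4096) * h) ∧
      (∀ (k : ℕ) (s : ℝ), 0 ≤ s →
        press τ μ + (3 / 1024 - 1 / 4096) * s ≤ press (bump τ k s) μ) := by
  obtain ⟨⟨μ, t⟩, hz⟩ := ekeland excess continuous_excess excess_nonneg
    (show (0 : ℝ) < 1 / 4096 by norm_num)
  refine ⟨wts t, μ, adm_wts t, fun h hh => ?_, fun k s hs => ?_⟩
  · have := hz (μ - h, t)
    have hd : dist (μ, t) (μ - h, t) = h := by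
      rw [Prod.dist_eq, dist_self, Real.dist_eq, sub_sub_cancel, abs_of_nonneg hh,
        max_eq_left hh]
    rw [hd] at this
    simp only [excess] at this
    linarith
  · let e : L1 := lp.single 1 k s
    have hcoe : ∀ i, (((t : L1) + e : L1) : ∀ _ : ℕ, ℝ) i = bump (wts t) k s i := by
      intro i
      by_cases hi : i = k
      · subst hi; simp [e, bump, wts, lp.single_apply]
      · simp [e, bump, wts, lp.single_apply, hi]
    let t' : cone := ⟨(t : L1) + e, fun i => by rw [hcoe]; exact (adm_bump (adm_wts t) k hs).1 i⟩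
    have hw : wts t' = bump (wts t) k s := funext hcoe
    have := hz (μ, t')
    have hd : dist (μ, t) (μ, t') = s := by
      have hsd : dist t t' = s := by
        rw [← dist_wts, hw]
        have : (fun i => |wts t i - bump (wts t) k s i|) = fun i => if i = k then s else 0 := by
          funext i
          unfold bump
          split_ifs <;> simp [abs_of_nonneg hs]
        rw [this]
        exact tsum_ite_eq k _
      rw [Prod.dist_eq, dist_self, hsd, max_eq_right hs]
    rw [hd] at this
    have htot : tot (bump (wts t) k s) = tot (wts t) + s :=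
      ((adm_wts t).2.hasSum.add (hasSum_ite_eq k s)).tsum_eq
    simp only [excess, hw, htot] at this
    linarith

lemma tendsto_tot_high {τ : ℕ → ℝ} (hτ : Adm τ) :
    Tendsto (fun m => tot (high τ m)) atTop (𝓝 0) := by
  have h : ∀ m, tot (high τ m) = tot τ - ∑ i ∈ Finset.range (m + 1), τ i := by
    intro m
    have h1 : HasSum (fun i => if i ∈ Finset.range (m + 1) then τ i else 0)
        (∑ i ∈ Finset.range (m + 1), τ i) := by
      convert! hasSum_sum_of_ne_finset_zero (L := SummationFilter.unconditional ℕ)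
        (f := fun i => if i ∈ Finset.range (m + 1) then τ i else 0) (s := Finset.range (m + 1))
        (fun b hb => if_neg hb) using 1
      exact Finset.sum_congr rfl (fun i hi => (if_pos hi).symm)
    refine HasSum.tsum_eq ?_
    convert! hτ.2.hasSum.sub h1 using 1
    funext i
    simp only [high, Finset.mem_range]
    by_cases hi : m < i
    · rw [if_pos hi, if_neg (by omega), sub_zero]
    · rw [if_neg hi, if_pos (by omega), sub_self]
  simp only [h]
  simpa [tot] using (hτ.2.hasSum.tendsto_sum_nat.comp (tendsto_add_atTop_nat 1)).const_sub (tot τ)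

/-- The pressure of some potential is not differentiable. -/
theorem exists_not_differentiable :
    ∃ (τ : ℕ → ℝ) (μ : ℝ), Adm τ ∧ ¬ DifferentiableAt ℝ (press τ) μ := by
  obtain ⟨τ, μ, hτ, hE1, hE2⟩ := exists_special_point
  refine ⟨τ, μ, hτ, fun hdiff => ?_⟩
  set P₀ := press τ μ with hP₀
  have hP : 0 ≤ P₀ := press_nonneg hτ μ
  have hd := hdiff.hasDerivAt
  set ρ := deriv (press τ) μ
  have hρ : ρ ≤ 1 / 16 + 1 / 4096 := by
    have ht := hd.hasDerivWithinAt (s := Set.Iio μ)
    rw [hasDerivWithinAt_iff_tendsto_slope' (by simp)] at ht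
    refine le_of_tendsto ht ?_
    filter_upwards [self_mem_nhdsWithin] with y hy
    have hy' : y < μ := hy
    have := hE1 (μ - y) (by linarith)
    rw [sub_sub_cancel] at this
    rw [slope_def_field, div_le_iff_of_neg (by linarith)]
    linarith
  set r : ℝ := 129 / 2048 with hr
  obtain ⟨δ, hδ, hsmall⟩ : ∃ δ > 0, ∀ a, 0 ≤ a → a < δ → press τ (μ + a) ≤ P₀ + r * a := by
    have ht := hd.hasDerivWithinAt (s := Set.Ioi μ)
    rw [hasDerivWithinAt_iff_tendsto_slope' (by simp)] at ht
    have hev := ht.eventually_lt_const (show ρ < r by rw [hr]; linarith)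
    rw [eventually_nhdsWithin_iff, Metric.eventually_nhds_iff] at hev
    obtain ⟨δ, hδ, h⟩ := hev
    refine ⟨δ, hδ, fun a ha haδ => ?_⟩
    rcases ha.eq_or_lt with rfl | ha
    · simp [P₀]
    have := h (y := μ + a) (by rw [Real.dist_eq]; simpa [abs_of_pos ha] using haδ) (by simpa using ha)
    rw [slope_def_field, add_sub_cancel_left, div_lt_iff₀ ha] at this
    linarith
  obtain ⟨C₁, hC₁⟩ := exists_press_growth one_pos (tot τ) μ
  set C₀ := max C₁ 0 / δ ^ 2 + 1 with hC₀
  have hC₀pos : 1 ≤ C₀ := by rw [hC₀]; have : 0 ≤ max C₁ 0 / δ ^ 2 := by positivity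
                             linarith
  have hgrow : ∀ a, 0 ≤ a → press τ (μ + a) ≤ P₀ + r * a + C₀ * a ^ 2 := by
    intro a ha
    rcases lt_or_ge a δ with h | h
    · have : 0 ≤ C₀ * a ^ 2 := by positivity
      linarith [hsmall a ha h]
    · have h1 := hC₁ τ hτ le_rfl μ le_rfl a
      have h2 : max C₁ 0 ≤ max C₁ 0 / δ ^ 2 * a ^ 2 := by
        rw [div_mul_eq_mul_div, le_div_iff₀ (by positivity)]
        gcongr
      have h3 : 0 ≤ r * a := by positivity
      rw [hC₀]
      linarith [le_max_left C₁ 0]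
  set s : ℝ := 1 / (200 * (C₀ + 1)) with hs
  have hs0 : 0 < s := by positivity
  have hsC : s * C₀ ≤ 1 / 200 := by
    rw [hs, div_mul_eq_mul_div, one_mul, div_le_iff₀ (by positivity)]; linarith
  obtain ⟨Ch, hCh, hhalf⟩ := exists_logXi_bound (κ := 1 / 2) (by norm_num) (tot τ) (μ + 1)
  set θ : ℝ := min (1 / 100) (s / (10000 * (Ch + 1))) with hθdef
  have hθ : 0 < θ := by positivity
  have hθ1 : θ ≤ 1 / 100 := min_le_left _ _
  have hθC : θ * Ch ≤ s / 10000 := by
    calc θ * Ch ≤ s / (10000 * (Ch + 1)) * (Ch + 1) :=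
          mul_le_mul (min_le_right _ _) (by linarith) hCh (by positivity)
      _ = s / 10000 := by field_simp
  set g : ℝ := s / 200 with hg
  have hg0 : 0 < g := by positivity
  set A : ℝ := 96 / 100 / (2 * s) with hA
  have hA0 : 0 < A := by positivity
  set K : ℝ := -Real.log (1 - Real.exp (-(θ * A * g ^ 2)))
  obtain ⟨m, hm⟩ := ((tendsto_tot_high hτ).eventually_le_const
    (show (0 : ℝ) < θ / 160 by positivity)).exists
  have hev1 : ∀ᶠ l : ℕ in atTop, 3 * (rad m + 1) / (l : ℝ) * (2 * tot τ) ≤ θ / 40 := by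
    have : Tendsto (fun l : ℕ => 3 * (rad m + 1) / (l : ℝ) * (2 * tot τ)) atTop (𝓝 0) := by
      simpa using (tendsto_const_div_atTop_nhds_zero_nat (3 * (rad m + 1))).mul_const (2 * tot τ)
    exact this.eventually_le_const (by positivity)
  have hQlim : Tendsto (fun l : ℕ => (((l : ℝ) + 1) / l) ^ 3) atTop (𝓝 1) := by
    have h1 : Tendsto (fun l : ℕ => 1 + 1 / (l : ℝ)) atTop (𝓝 1) := by
      simpa using (tendsto_const_div_atTop_nhds_zero_nat (1 : ℝ)).const_add 1
    have h2 : Tendsto (fun l : ℕ => ((l : ℝ) + 1) / l) atTop (𝓝 1) := by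
      refine h1.congr' ?_
      filter_upwards [eventually_gt_atTop 0] with l hl
      have : (l : ℝ) ≠ 0 := by positivity
      field_simp
    simpa using h2.pow 3
  have hev2 : ∀ᶠ l : ℕ in atTop,
      (((l : ℝ) + 1) / l) ^ 3 ≤ 1 + min (1 / 1000) (s / (10000 * (P₀ + 1))) :=
    hQlim.eventually_le_const (lt_add_of_pos_right _ (by positivity))
  have hev3 : ∀ᶠ l : ℕ in atTop, K / (l : ℝ) ^ 3 ≤ s / 10000 := by
    have : Tendsto (fun l : ℕ => K / (l : ℝ) ^ 3) atTop (𝓝 0) :=
      tendsto_const_nhds.div_atTop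
        ((tendsto_pow_atTop (by norm_num)).comp tendsto_natCast_atTop_atTop)
    exact this.eventually_le_const (by positivity)
  obtain ⟨l, ⟨⟨h1, h2⟩, h3⟩, hl⟩ :=
    (((hev1.and hev2).and hev3).and (eventually_gt_atTop 0)).exists
  have hqlim : Tendsto (fun k => ((rad k + 4 * (l : ℝ)) / rad k) ^ 3) atTop (𝓝 1) := by
    have h1 : Tendsto (fun k => 1 + 4 * (l : ℝ) / rad k) atTop (𝓝 1) := by
      simpa using ((tendsto_const_nhds (x := 4 * (l : ℝ))).div_atTop rad_tendsto).const_add 1
    have h2 : Tendsto (fun k => (rad k + 4 * (l : ℝ)) / rad k) atTop (𝓝 1) :=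
      h1.congr (fun k => by have := (rad_pos k).ne'; field_simp)
    simpa using h2.pow 3
  obtain ⟨k, hq⟩ := (hqlim.eventually_le_const (show (1 : ℝ) < 101 / 100 by norm_num)).exists
  set q := ((rad k + 4 * (l : ℝ)) / rad k) ^ 3 with hqdef
  set Q := (((l : ℝ) + 1) / l) ^ 3 with hQdef
  have hq1 : 1 ≤ q := by
    refine one_le_pow₀ ?_
    rw [one_le_div (rad_pos k)]
    have : (0 : ℝ) ≤ l := Nat.cast_nonneg l
    linarith
  have hQ0 : 0 ≤ Q := by positivity
  have hQ2 : Q ≤ 1001 / 1000 := by
    have := min_le_left (1 / 1000 : ℝ) (s / (10000 * (P₀ + 1)))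
    linarith
  have hA' : A ≤ 1 / (2 * (s * q)) - Q * C₀ / (1 - θ) := by
    have e1 : 100 / 101 / (2 * s) ≤ 1 / (2 * (s * q)) := by
      rw [div_div, div_le_div_iff₀ (by positivity) (by positivity)]
      nlinarith
    have e2 : Q * C₀ / (1 - θ) ≤ (1001 / 1000) * C₀ / (99 / 100) := by
      gcongr; linarith
    have e3 : (1001 / 1000) * C₀ / (99 / 100) ≤ (100 / 101 - 96 / 100) / (2 * s) := by
      rw [le_div_iff₀ (by positivity)]
      linarith
    rw [hA, show (96 : ℝ) / 100 / (2 * s) = 100 / 101 / (2 * s) - (100 / 101 - 96 / 100) / (2 * s)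
      by ring]
    linarith
  have hmain := press_bump_le hτ (m := m) (k := k) hl hθ (by linarith) hs0 hg0 hA0
    (r := r) (by positivity) hP (by linarith) hA' hgrow hCh
    (hhalf τ hτ le_rfl (μ + 1) le_rfl l (Nat.cast_nonneg l))
  have hlow := hE2 k s hs0.le
  have t1 : Q * (P₀ + θ * Ch) ≤ P₀ + s / 10000 + 1001 / 1000 * (s / 10000) := by
    have a1 : (Q - 1) * P₀ ≤ s / 10000 := by
      calc (Q - 1) * P₀ ≤ s / (10000 * (P₀ + 1)) * (P₀ + 1) := by
            refine mul_le_mul ?_ (by linarith) hP (by positivity)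
            linarith [min_le_right (1 / 1000 : ℝ) (s / (10000 * (P₀ + 1)))]
        _ = _ := by field_simp
    have a2 : Q * (θ * Ch) ≤ 1001 / 1000 * (s / 10000) :=
      mul_le_mul hQ2 hθC (by positivity) (by norm_num)
    linarith
  have t2 : (Q * r) ^ 2 / (4 * (1 - θ) * A) ≤ s * (2092 / 1000000) := by
    have b1 : (Q * r) ^ 2 ≤ (1001 / 1000 * r) ^ 2 := by
      gcongr
    have b2 : 4 * (99 / 100) * A ≤ 4 * (1 - θ) * A := by gcongr; linarith
    calc (Q * r) ^ 2 / (4 * (1 - θ) * A) ≤ (1001 / 1000 * r) ^ 2 / (4 * (99 / 100) * A) :=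
          div_le_div₀ (by positivity) b1 (by positivity) b2
      _ = s * ((1001 / 1000 * (129 / 2048)) ^ 2 * 2 / (4 * (99 / 100) * (96 / 100))) := by
          rw [hA, hr]; field_simp
      _ ≤ _ := mul_le_mul_of_nonneg_left (by norm_num) hs0.le
  have t3 : g ^ 2 / (2 * (s * q)) ≤ s / 80000 := by
    calc g ^ 2 / (2 * (s * q)) ≤ g ^ 2 / (2 * (s * 1)) := by gcongr
      _ = _ := by rw [hg]; field_simp; ring
  have t4 : -Real.log (1 - Real.exp (-(θ * A * g ^ 2))) / (l : ℝ) ^ 3 ≤ s / 10000 := h3
  rw [neg_div] at t4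
  linarith

end Vale.Agent.P171
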