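import Vale.Agent.P171.Defs
import Vale.Agent.P171.Main

/-!
The potential built from given weights satisfies the structural conditions.
-/

namespace Vale.Agent.P171

open MeasureTheory Set Filter Metric
open scoped ENNReal Topology

lemma sum_pairs_eq_two_mul {N : ℕ} (p : ℝ → ℝ) (hp : p 0 = 0) (x : Fin N → E3) :
    pairs x p = 2 * pairEnergy p x := by
  classical
  unfold pairs pairEnergy
  have h : ∀ i j : Fin N, p (dist (x i) (x j)) =
      (if i < j then p (dist (x i) (x j)) else 0) + (if j < i then p (dist (x j) (x i)) else 0) := by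
    intro i j
    rcases lt_trichotomy i j with h | h | h
    · simp [h, not_lt.2 h.le]
    · subst h; simp [hp]
    · simp [h, not_lt.2 h.le, dist_comm]
  rw [Finset.sum_congr rfl (fun i _ => Finset.sum_congr rfl (fun j _ => h i j))]
  simp only [Finset.sum_add_distrib]
  rw [Finset.sum_comm (f := fun i j => if j < i then p (dist (x j) (x i)) else 0), ← two_mul]
  simp only [Finset.sum_filter]

lemma en_eq_pairEnergy {N : ℕ} {τ : ℕ → ℝ} (ν : ℝ) (x : Fin N → E3) :
    en (ptl 1 τ) ν (conf x) = pairEnergy (ptl 1 τ) x - ν * N := by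
  rw [en_conf]
  have := sum_pairs_eq_two_mul (ptl 1 τ) (ptl_zero 1 τ) x
  unfold pairs at this
  rw [this]
  simp

lemma grandZ_eq {τ : ℕ → ℝ} {z : ℝ} (hz : 0 < z) (L : ℝ) :
    grandZ (ptl 1 τ) 1 z L = Xi 1 τ (Real.log z) (box L) := by
  unfold grandZ canonicalZ Xi gint cint
  refine tsum_congr (fun N => ?_)
  rw [mul_left_comm, ← lintegral_const_mul' _ _ ENNReal.ofReal_ne_top]
  congr 1
  refine lintegral_congr (fun x => ?_)
  rw [wt, en_eq_pairEnergy, one_mul, neg_sub, Real.exp_sub, mul_comm (Real.log z),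
    Real.exp_nat_mul, Real.exp_log hz, ← ENNReal.ofReal_mul (by positivity), Real.exp_neg]
  rfl

lemma stable_ptl {τ : ℕ → ℝ} (hτ : Adm τ) : IsStablePotential (ptl 1 τ) := by
  obtain ⟨B, hB⟩ := exists_energy_bound one_pos (tot τ) 0
  refine ⟨B, fun N x hx => ?_⟩
  have := hB τ hτ le_rfl 0 le_rfl N x hx
  rw [en_eq_pairEnergy] at this
  linarith

lemma tempered_ptl {τ : ℕ → ℝ} (hτ : Adm τ) : IsTemperedPotential (ptl 1 τ) := by
  refine ⟨1, 1, 1, one_pos, one_pos, one_pos, fun r hr => (ptl_nonpos hτ 1 hr).trans ?_⟩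
  have : 0 ≤ r ^ (-3 - 1 : ℝ) := Real.rpow_nonneg (by linarith) _
  linarith

lemma locallyBounded_ptl {τ : ℕ → ℝ} (hτ : Adm τ) : IsLocallyBoundedPotential (ptl 1 τ) := by
  intro a b ha
  refine ⟨(a ^ 6)⁻¹ + tot τ * v1⁻¹, fun r hr => ?_⟩
  have h1 : core r ≤ (a ^ 6)⁻¹ := by
    unfold core
    split_ifs
    · gcongr; exact hr.1
    · positivity
  have h2 := att_le hτ r
  have h3 := core_nonneg r
  have h4 := att_nonneg hτ r
  rw [ptl, abs_le]
  have : 0 ≤ (a ^ 6)⁻¹ := by positivity
  constructor <;> linarith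

lemma antitoneOn_att {τ : ℕ → ℝ} (hτ : Adm τ) : AntitoneOn (att τ) (Set.Ioi 0) := by
  intro a ha b _ hab
  refine (summable_att hτ b).tsum_le_tsum (fun k => mul_le_mul_of_nonneg_left ?_ (hτ.1 k))
    (summable_att hτ a)
  have hk := rad_pos k
  have hv := v1_pos
  unfold kern
  split_ifs with h1 h2
  · exact le_rfl
  · exact absurd ⟨ha, lt_of_le_of_lt hab h1.2⟩ h2
  · positivity
  · exact le_rfl

lemma integrable_att {τ : ℕ → ℝ} (hτ : Adm τ) :
    Integrable (fun x : E3 => att τ ‖x‖) := by
  refine ⟨((measurable_att hτ).comp measurable_norm).aestronglyMeasurable, ?_⟩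
  rw [hasFiniteIntegral_iff_ofReal (Eventually.of_forall fun x => att_nonneg hτ _)]
  calc ∫⁻ x : E3, ENNReal.ofReal (att τ ‖x‖)
      = ∫⁻ x : E3, ∑' k, ENNReal.ofReal (τ k * kern (rad k) ‖x‖) := by
        refine lintegral_congr (fun x => ?_)
        exact ENNReal.ofReal_tsum_of_nonneg
          (fun k => mul_nonneg (hτ.1 k) (kern_nonneg (rad_pos k).le _)) (summable_att hτ _)
    _ = ∑' k, ∫⁻ x : E3, ENNReal.ofReal (τ k * kern (rad k) ‖x‖) := by
        refine lintegral_tsum (fun k => ?_)
        exact (((measurable_kern _).comp measurable_norm).const_mul _).ennreal_ofReal.aemeasurable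
    _ ≤ ∑' k, ENNReal.ofReal (τ k) := by
        refine ENNReal.tsum_le_tsum (fun k => ?_)
        have hk := rad_pos k
        have hv := v1_pos
        calc ∫⁻ x : E3, ENNReal.ofReal (τ k * kern (rad k) ‖x‖)
            ≤ ∫⁻ x : E3, (ball (0 : E3) (rad k)).indicator
                (fun _ => ENNReal.ofReal (τ k * (v1 * rad k ^ 3)⁻¹)) x := by
              refine lintegral_mono (fun x => ?_)
              by_cases hx : ‖x‖ < rad k
              · rw [Set.indicator_of_mem (by simpa using hx)]
                refine ENNReal.ofReal_le_ofReal (mul_le_mul_of_nonneg_left ?_ (hτ.1 k))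
                exact (kern_le hk.le _).trans (by rw [if_pos hx])
              · rw [Set.indicator_of_notMem (by simpa using hx)]
                simp [kern, hx]
          _ = ENNReal.ofReal (τ k) := by
              rw [lintegral_indicator_const measurableSet_ball, volume_ball_eq _ hk.le,
                ← ENNReal.ofReal_mul (mul_nonneg (hτ.1 k) (by positivity))]
              congr 1
              field_simp
    _ < ∞ := by
        rw [← ENNReal.ofReal_tsum_of_nonneg hτ.1 hτ.2]
        exact ENNReal.ofReal_lt_top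

lemma lowerRegular_ptl {τ : ℕ → ℝ} (hτ : Adm τ) : IsLowerRegularPotential (ptl 1 τ) := by
  refine ⟨att τ, antitoneOn_att hτ, integrable_att hτ, fun r _ => ?_⟩
  have := core_nonneg r
  rw [ptl]
  linarith

end Vale.Agent.P171
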