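import Mathlib

/-!
Definitions for classical particle systems with a radial pair potential in three dimensions.
-/

namespace Vale.Agent.P171

open MeasureTheory
open scoped ENNReal

/-- Total pair energy `U_N(x) = ∑_{i<j} φ(|x_i - x_j|)`. -/
noncomputable def pairEnergy (φ : ℝ → ℝ) {N : ℕ} (x : Fin N → EuclideanSpace ℝ (Fin 3)) : ℝ :=
  ∑ i : Fin N, ∑ j ∈ Finset.univ.filter (fun j : Fin N => i < j), φ (dist (x i) (x j))

/-- The canonical partition function `Z_{L,N}(β) = (1/N!) ∫_{([0,L]^3)^N} exp(-β U_N)`. -/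
noncomputable def canonicalZ (φ : ℝ → ℝ) (β L : ℝ) (N : ℕ) : ℝ≥0∞ :=
  ((N.factorial : ℝ≥0∞))⁻¹ *
    ∫⁻ x in Set.univ.pi (fun _ : Fin N =>
        {y : EuclideanSpace ℝ (Fin 3) | ∀ i, y i ∈ Set.Icc 0 L}),
      ENNReal.ofReal (Real.exp (-(β * pairEnergy φ x)))

/-- The grand canonical partition function `∑_N z^N Z_{L,N}(β)`. -/
noncomputable def grandZ (φ : ℝ → ℝ) (β z L : ℝ) : ℝ≥0∞ :=
  ∑' N : ℕ, ENNReal.ofReal (z ^ N) * canonicalZ φ β L N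

/-- Stability: `U_N ≥ -B N` for all configurations of distinct points. -/
def IsStablePotential (φ : ℝ → ℝ) : Prop :=
  ∃ B : ℝ, ∀ (N : ℕ) (x : Fin N → EuclideanSpace ℝ (Fin 3)), Function.Injective x →
    -(B * N) ≤ pairEnergy φ x

/-- Temperedness: `φ r ≤ C r^(-3-ε)` for all `r ≥ R₀`. -/
def IsTemperedPotential (φ : ℝ → ℝ) : Prop :=
  ∃ C ε R₀ : ℝ, 0 < C ∧ 0 < ε ∧ 0 < R₀ ∧ ∀ r, R₀ ≤ r → φ r ≤ C * r ^ (-3 - ε : ℝ)

/-- Local boundedness on `(0, ∞)`. -/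
def IsLocallyBoundedPotential (φ : ℝ → ℝ) : Prop :=
  ∀ a b : ℝ, 0 < a → ∃ M : ℝ, ∀ r ∈ Set.Icc a b, |φ r| ≤ M

/-- Lower regularity: the negative part is dominated by a decreasing integrable radial profile. -/
def IsLowerRegularPotential (φ : ℝ → ℝ) : Prop :=
  ∃ ψ : ℝ → ℝ, AntitoneOn ψ (Set.Ioi 0) ∧
    Integrable (fun x : EuclideanSpace ℝ (Fin 3) => ψ ‖x‖) ∧ ∀ r, 0 < r → -φ r ≤ ψ r

end Vale.Agent.P171
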