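import Vale.Agent.P171.Basic

/-!
Factorization of grand canonical integrals over disjoint regions.
-/

namespace Vale.Agent.P171

open MeasureTheory Set Filter
open scoped ENNReal Topology

open Classical in
lemma cint_union_term {A B : Set E3} (hA : MeasurableSet A) (hB : MeasurableSet B)
    (hAB : Disjoint A B) {f g : Multiset E3 → ℝ≥0∞} (hf : MeasG f) (hg : MeasG g) (N : ℕ)
    (s : Finset (Fin N)) :
    ∫⁻ x in Set.univ.pi (fun i => if i ∈ s then A else B),
        f ((conf x).filter (· ∈ A)) * g ((conf x).filter (· ∈ B))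
      = cint (Fin s.card) A f * cint (Fin (N - s.card)) B g := by
  set e := MeasurableEquiv.piEquivPiSubtypeProd (fun _ : Fin N => E3) (fun i => i ∈ s)
  have hmp : MeasurePreserving e := by
    have h := volume_preserving_piEquivPiSubtypeProd (fun _ : Fin N => E3) (fun i => i ∈ s)
    have hi : (Subtype.fintype (fun i : Fin N => i ∈ s)) = Finset.Subtype.fintype s :=
      Subsingleton.elim _ _
    rw [hi] at h
    exact h
  have hpat : Set.univ.pi (fun i => if i ∈ s then A else B)
      = e ⁻¹' ((Set.univ.pi fun _ : {i // i ∈ s} => A) ×ˢ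
          (Set.univ.pi fun _ : {i // ¬ i ∈ s} => B)) := by
    ext x
    simp only [mem_preimage, mem_prod, Set.mem_univ_pi]
    constructor
    · intro h
      refine ⟨fun i => ?_, fun i => ?_⟩
      · have h' := h i.1
        rw [if_pos i.2] at h'
        exact h'
      · have h' := h i.1
        rw [if_neg i.2] at h'
        exact h'
    · intro h i
      by_cases hi : i ∈ s
      · rw [if_pos hi]; exact h.1 ⟨i, hi⟩
      · rw [if_neg hi]; exact h.2 ⟨i, hi⟩
  have hint : ∀ x ∈ Set.univ.pi (fun i => if i ∈ s then A else B),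
      f ((conf x).filter (· ∈ A)) * g ((conf x).filter (· ∈ B))
        = (fun z : ({i // i ∈ s} → E3) × ({i // ¬ i ∈ s} → E3) =>
            f (conf z.1) * g (conf z.2)) (e x) := by
    intro x hx
    have h1 : ∀ i, (i ∈ s ↔ x i ∈ A) := by
      intro i
      have := hx i (mem_univ _)
      by_cases hi : i ∈ s
      · simp only [hi, if_true] at this
        simp [hi, this]
      · simp only [hi, if_false] at this
        simp only [hi, false_iff]
        exact Set.disjoint_right.1 hAB this
    have h2 : ∀ i, (¬ i ∈ s ↔ x i ∈ B) := by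
      intro i
      have := hx i (mem_univ _)
      by_cases hi : i ∈ s
      · simp only [hi, if_true] at this
        simp only [hi, not_true, false_iff]
        exact Set.disjoint_left.1 hAB this
      · simp only [hi, if_false] at this
        simp [hi, this]
    exact congrArg₂ (fun u v => f u * g v) (conf_filter_sub x (· ∈ A) (fun i => i ∈ s) h1)
      (conf_filter_sub x (· ∈ B) (fun i => ¬ i ∈ s) h2)
  rw [setLIntegral_congr_fun (measurableSet_pattern (fun i => by split_ifs <;> assumption)) hint,
    hpat, hmp.setLIntegral_comp_preimage_emb e.measurableEmbedding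
      (fun z : ({i // i ∈ s} → E3) × ({i // ¬ i ∈ s} → E3) => f (conf z.1) * g (conf z.2))]
  rw [Measure.volume_eq_prod, ← Measure.prod_restrict,
    lintegral_prod_mul (hf.fintype _).aemeasurable (hg.fintype _).aemeasurable]
  congr 1
  · exact cint_equiv (Fintype.equivFinOfCardEq (by simp)) A f
  · exact cint_equiv (Fintype.equivFinOfCardEq (by simp [Fintype.card_subtype_compl])) B g

open Classical in
lemma cint_union {A B : Set E3} (hA : MeasurableSet A) (hB : MeasurableSet B)
    (hAB : Disjoint A B) {f g : Multiset E3 → ℝ≥0∞} (hf : MeasG f) (hg : MeasG g) (N : ℕ) :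
    cint (Fin N) (A ∪ B) (fun m => f (m.filter (· ∈ A)) * g (m.filter (· ∈ B)))
      = ∑ j ∈ Finset.range (N + 1),
          (N.choose j : ℝ≥0∞) * (cint (Fin j) A f * cint (Fin (N - j)) B g) := by
  have hU : (Set.univ.pi fun _ : Fin N => A ∪ B)
      = ⋃ s ∈ (Finset.univ : Finset (Fin N)).powerset,
          Set.univ.pi (fun i => if i ∈ s then A else B) := by
    ext x
    simp only [Set.mem_univ_pi, mem_union, mem_iUnion, Finset.mem_powerset,
      Finset.subset_univ, exists_prop, true_and]
    constructor
    · intro h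
      refine ⟨Finset.univ.filter (fun i => x i ∈ A), fun i => ?_⟩
      by_cases hi : x i ∈ A
      · simp [hi]
      · simp [hi, (h i).resolve_left hi]
    · rintro ⟨s, hs⟩ i
      have := hs i
      split_ifs at this with hi
      · exact Or.inl this
      · exact Or.inr this
  have hd : Set.PairwiseDisjoint (↑((Finset.univ : Finset (Fin N)).powerset))
      (fun s : Finset (Fin N) => Set.univ.pi (fun i => if i ∈ s then A else B)) := by
    intro s _ t _ hst
    refine Set.disjoint_left.2 (fun x hx hx' => hst ?_)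
    ext i
    have h1 := hx i (mem_univ _)
    have h2 := hx' i (mem_univ _)
    by_cases hi : i ∈ s <;> by_cases hj : i ∈ t <;> simp [hi, hj] at h1 h2 ⊢
    · exact absurd h2 (Set.disjoint_left.1 hAB h1)
    · exact absurd h1 (Set.disjoint_left.1 hAB h2)
  unfold cint
  rw [hU, lintegral_biUnion_finset hd
    (fun s _ => measurableSet_pattern (fun i => by split_ifs <;> assumption))]
  rw [Finset.sum_congr rfl (fun s _ => cint_union_term hA hB hAB hf hg N s)]
  rw [Finset.sum_powerset_apply_card
    (f := fun j => cint (Fin j) A f * cint (Fin (N - j)) B g)]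
  simp only [Finset.card_univ, Fintype.card_fin, nsmul_eq_mul, cint]

lemma inv_factorial_choose {N j : ℕ} (h : j ≤ N) :
    ((N.factorial : ℝ≥0∞))⁻¹ * (N.choose j : ℝ≥0∞)
      = ((j.factorial : ℝ≥0∞))⁻¹ * (((N - j).factorial : ℝ≥0∞))⁻¹ := by
  have hN : (N.factorial : ℝ≥0∞) ≠ 0 := by exact_mod_cast N.factorial_ne_zero
  have hj : (j.factorial : ℝ≥0∞) ≠ 0 := by exact_mod_cast j.factorial_ne_zero
  have hk : ((N - j).factorial : ℝ≥0∞) ≠ 0 := by exact_mod_cast (N - j).factorial_ne_zero
  rw [← ENNReal.mul_inv (Or.inl hj) (Or.inl (ENNReal.natCast_ne_top _))]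
  refine ENNReal.eq_inv_of_mul_eq_one_left ?_
  rw [mul_assoc, ← Nat.cast_mul, ← Nat.cast_mul]
  have h2 : N.choose j * (j.factorial * (N - j).factorial) = N.factorial := by
    rw [← mul_assoc]; exact Nat.choose_mul_factorial_mul_factorial h
  rw [h2, ENNReal.inv_mul_cancel hN (ENNReal.natCast_ne_top _)]

open Classical in
lemma gint_union {A B : Set E3} (hA : MeasurableSet A) (hB : MeasurableSet B)
    (hAB : Disjoint A B) {f g : Multiset E3 → ℝ≥0∞} (hf : MeasG f) (hg : MeasG g) :
    gint (A ∪ B) (fun m => f (m.filter (· ∈ A)) * g (m.filter (· ∈ B)))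
      = gint A f * gint B g := by
  unfold gint
  set a : ℕ → ℝ≥0∞ := fun j => ((j.factorial : ℝ≥0∞))⁻¹ * cint (Fin j) A f with ha
  set b : ℕ → ℝ≥0∞ := fun j => ((j.factorial : ℝ≥0∞))⁻¹ * cint (Fin j) B g with hb
  rw [← ENNReal.tsum_mul_right]
  simp_rw [← ENNReal.tsum_mul_left]
  rw [← ENNReal.tsum_prod (f := fun j k => a j * b k),
    ← Finset.HasAntidiagonal.sigmaAntidiagonalEquivProd.tsum_eq (fun p : ℕ × ℕ => a p.1 * b p.2),
    ENNReal.tsum_sigma']
  refine tsum_congr (fun N => ?_)
  simp only [Finset.HasAntidiagonal.sigmaAntidiagonalEquivProd_apply]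
  rw [cint_union hA hB hAB hf hg, Finset.mul_sum, tsum_fintype,
    Finset.sum_coe_sort (Finset.HasAntidiagonal.antidiagonal N)
      (fun p : ℕ × ℕ => a p.1 * b p.2),
    Finset.Nat.sum_antidiagonal_eq_sum_range_succ (fun j k => a j * b k)]
  refine Finset.sum_congr rfl (fun j hj => ?_)
  have hj' : j ≤ N := by simp at hj; omega
  simp only [ha, hb]
  rw [← mul_assoc, inv_factorial_choose hj']
  ring

open Classical in
lemma MeasG.filter {g : Multiset E3 → ℝ≥0∞} (hg : MeasG g) {A : Set E3} (hA : MeasurableSet A) :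
    MeasG (fun m => g (m.filter (· ∈ A))) := by
  intro N
  have h : ∀ x : Fin N → E3, g ((conf x).filter (· ∈ A)) =
      ∑ s ∈ (Finset.univ : Finset (Fin N)).powerset,
        Set.indicator (Set.univ.pi (fun i => if i ∈ s then A else Aᶜ))
          (fun x => g (conf (fun i : {i // i ∈ s} => x i))) x := by
    intro x
    rw [Finset.sum_eq_single (Finset.univ.filter (fun i => x i ∈ A))]
    · rw [Set.indicator_of_mem]
      · rw [conf_filter_sub x (· ∈ A) (fun i => i ∈ Finset.univ.filter (fun i => x i ∈ A))
          (fun i => by simp)]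
      · intro i _
        by_cases hi : x i ∈ A <;> simp [hi]
    · intro s _ hs
      rw [Set.indicator_of_notMem]
      intro hx
      refine hs (Finset.ext fun i => ?_)
      have := hx i (mem_univ _)
      by_cases hi : i ∈ s <;> simp [hi] at this ⊢ <;> exact this
    · intro h
      simp at h
  simp only [h]
  refine Finset.measurable_sum _ (fun s _ => Measurable.indicator ?_ ?_)
  · exact (hg.fintype _).comp (measurable_pi_lambda _ fun i => measurable_pi_apply _)
  · exact measurableSet_pattern (fun i => by split_ifs <;> [exact hA; exact hA.compl])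

lemma MeasG.finset_prod {β : Type} {f : β → Multiset E3 → ℝ≥0∞} {s : Finset β}
    (hf : ∀ b ∈ s, MeasG (f b)) : MeasG (fun m => ∏ b ∈ s, f b m) := by
  intro N
  exact Finset.measurable_prod _ (fun b hb => hf b hb N)

lemma gint_empty_set (g : Multiset E3 → ℝ≥0∞) : gint ∅ g = g 0 := by
  unfold gint
  rw [tsum_eq_single 0]
  · simp [cint, conf, volume_pi]
  · intro N hN
    have : (Set.univ.pi fun _ : Fin N => (∅ : Set E3)) = ∅ :=
      Set.univ_pi_eq_empty_iff.2 ⟨⟨0, Nat.pos_of_ne_zero hN⟩, rfl⟩
    simp [cint, this]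

lemma gint_congr {A : Set E3} (hA : MeasurableSet A) {g g' : Multiset E3 → ℝ≥0∞}
    (h : ∀ (N : ℕ) (x : Fin N → E3), (∀ i, x i ∈ A) → g (conf x) = g' (conf x)) :
    gint A g = gint A g' := by
  unfold gint cint
  refine tsum_congr (fun N => ?_)
  congr 1
  exact setLIntegral_congr_fun (measurableSet_pattern fun _ => hA)
    (fun x hx => h N x (fun i => hx i (mem_univ _)))

open Classical in
/-- Factorization over finitely many disjoint regions. -/
lemma gint_biUnion {β : Type} [DecidableEq β] (B : Finset β) {S : β → Set E3}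
    (hS : ∀ b ∈ B, MeasurableSet (S b)) (hd : (↑B : Set β).PairwiseDisjoint S)
    {f : β → Multiset E3 → ℝ≥0∞} (hf : ∀ b ∈ B, MeasG (f b)) :
    gint (⋃ b ∈ B, S b) (fun m => ∏ b ∈ B, f b (m.filter (· ∈ S b)))
      = ∏ b ∈ B, gint (S b) (f b) := by
  induction B using Finset.induction_on with
  | empty => simp [gint_empty_set]
  | @insert c B hc ih =>
    have hS' : ∀ b ∈ B, MeasurableSet (S b) := fun b hb => hS b (Finset.mem_insert_of_mem hb)
    have hd' : (↑B : Set β).PairwiseDisjoint S :=
      hd.subset (by simp)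
    have hf' : ∀ b ∈ B, MeasG (f b) := fun b hb => hf b (Finset.mem_insert_of_mem hb)
    have hU : MeasurableSet (⋃ b ∈ B, S b) := Finset.measurableSet_biUnion B hS'
    have hdisj : Disjoint (S c) (⋃ b ∈ B, S b) := by
      simp only [disjoint_iUnion_right]
      intro b hb
      exact hd (by simp) (by simp [hb]) (fun h => hc (h ▸ hb))
    have hmeas : MeasG (fun m => ∏ b ∈ B, f b (m.filter (· ∈ S b))) :=
      MeasG.finset_prod (fun b hb => (hf' b hb).filter (hS' b hb))
    rw [Finset.set_biUnion_insert, Finset.prod_insert hc, ← ih hS' hd' hf',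
      ← gint_union (hS c (Finset.mem_insert_self _ _)) hU hdisj
        (hf c (Finset.mem_insert_self _ _)) hmeas]
    refine gint_congr ((hS c (Finset.mem_insert_self _ _)).union hU) (fun N x _ => ?_)
    rw [Finset.prod_insert hc]
    congr 1
    refine Finset.prod_congr rfl (fun b hb => ?_)
    rw [Multiset.filter_filter]
    congr 1
    refine Multiset.filter_congr (fun a _ => ?_)
    constructor
    · exact fun ha => ⟨ha, mem_iUnion₂.2 ⟨b, hb, ha⟩⟩
    · exact fun ha => ha.1

end Vale.Agent.P171
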