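import Vale.Agent.P171.Basic

/-!
Kernels, grids, and the elementary pair-counting bounds.
-/

namespace Vale.Agent.P171

open MeasureTheory Set Filter Metric
open scoped ENNReal Topology

/-- Volume of the unit ball. -/
noncomputable def v1 : ℝ := (volume (ball (0 : E3) 1)).toReal

lemma v1_pos : 0 < v1 :=
  ENNReal.toReal_pos (measure_ball_pos volume 0 one_pos).ne' measure_ball_lt_top.ne

lemma volume_ball_eq (c : E3) {r : ℝ} (hr : 0 ≤ r) :
    volume (ball c r) = ENNReal.ofReal (r ^ 3 * v1) := by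
  rw [Measure.addHaar_ball _ c hr, ENNReal.ofReal_mul (by positivity), v1,
    ENNReal.ofReal_toReal measure_ball_lt_top.ne]
  simp

/-- Repulsive core. -/
noncomputable def core (r : ℝ) : ℝ := if 0 < r ∧ r < 1 then (r ^ 6)⁻¹ else 0

/-- Normalized indicator kernel of range `R`. -/
noncomputable def kern (R r : ℝ) : ℝ := if 0 < r ∧ r < R then (v1 * R ^ 3)⁻¹ else 0

/-- The base scale. -/
noncomputable def rad0 : ℝ := max 96 (64 / v1)

/-- The scales. -/
noncomputable def rad (k : ℕ) : ℝ := rad0 * 2 ^ k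

/-- Attractive part with weights `τ`. -/
noncomputable def att (τ : ℕ → ℝ) (r : ℝ) : ℝ := ∑' k, τ k * kern (rad k) r

/-- The potential with core strength `κ`. -/
noncomputable def ptl (κ : ℝ) (τ : ℕ → ℝ) (r : ℝ) : ℝ := κ * core r - att τ r

/-- Admissible weights. -/
def Adm (τ : ℕ → ℝ) : Prop := (∀ k, 0 ≤ τ k) ∧ Summable τ

/-- Total weight. -/
noncomputable def tot (τ : ℕ → ℝ) : ℝ := ∑' k, τ k

lemma rad0_ge : 96 ≤ rad0 := le_max_left _ _

lemma rad_ge (k : ℕ) : 96 ≤ rad k := by
  have h : (1 : ℝ) ≤ 2 ^ k := one_le_pow₀ (by norm_num)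
  have := rad0_ge
  unfold rad
  nlinarith

lemma rad_pos (k : ℕ) : 0 < rad k := lt_of_lt_of_le (by norm_num) (rad_ge k)

lemma rad_mono : Monotone rad := fun a b h => by
  unfold rad
  have := rad0_ge
  exact mul_le_mul_of_nonneg_left (pow_le_pow_right₀ (by norm_num) h) (by linarith)

lemma rad_tendsto : Tendsto rad atTop atTop :=
  (tendsto_pow_atTop_atTop_of_one_lt (by norm_num : (1 : ℝ) < 2)).const_mul_atTop
    (lt_of_lt_of_le (by norm_num) rad0_ge)

lemma core_nonneg (r : ℝ) : 0 ≤ core r := by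
  unfold core
  split_ifs
  · positivity
  · exact le_rfl

lemma core_zero_of_one_le {r : ℝ} (h : 1 ≤ r) : core r = 0 := by
  unfold core; rw [if_neg]; exact fun h' => absurd h'.2 (not_lt.2 h)

lemma core_zero : core 0 = 0 := by simp [core]

lemma kern_nonneg {R : ℝ} (hR : 0 ≤ R) (r : ℝ) : 0 ≤ kern R r := by
  unfold kern
  have := v1_pos
  split_ifs
  · positivity
  · exact le_rfl

lemma kern_le {R : ℝ} (hR : 0 ≤ R) (r : ℝ) : kern R r ≤ if r < R then (v1 * R ^ 3)⁻¹ else 0 := by
  unfold kern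
  have := v1_pos
  by_cases h : r < R
  · rw [if_pos h]
    split_ifs
    · exact le_rfl
    · positivity
  · simp [h]

lemma kern_zero (R : ℝ) : kern R 0 = 0 := by simp [kern]

lemma kern_le_const {R : ℝ} (hR : 1 ≤ R) (r : ℝ) : kern R r ≤ v1⁻¹ := by
  refine (kern_le (by linarith) r).trans ?_
  have := v1_pos
  split_ifs
  · gcongr
    exact le_mul_of_one_le_right this.le (one_le_pow₀ hR)
  · positivity

lemma Adm.nonneg {τ : ℕ → ℝ} (h : Adm τ) (k : ℕ) : 0 ≤ τ k := h.1 k

lemma Adm.tot_nonneg {τ : ℕ → ℝ} (h : Adm τ) : 0 ≤ tot τ := tsum_nonneg h.1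

lemma summable_att {τ : ℕ → ℝ} (h : Adm τ) (r : ℝ) :
    Summable (fun k => τ k * kern (rad k) r) :=
  Summable.of_nonneg_of_le (fun k => mul_nonneg (h.1 k) (kern_nonneg (rad_pos k).le r))
    (fun k => mul_le_mul_of_nonneg_left
      (kern_le_const (le_trans (by norm_num) (rad_ge k)) r) (h.1 k))
    (h.2.mul_right _)

lemma att_nonneg {τ : ℕ → ℝ} (h : Adm τ) (r : ℝ) : 0 ≤ att τ r :=
  tsum_nonneg (fun k => mul_nonneg (h.1 k) (kern_nonneg (rad_pos k).le r))

lemma att_le {τ : ℕ → ℝ} (h : Adm τ) (r : ℝ) : att τ r ≤ tot τ * v1⁻¹ := by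
  rw [tot, ← tsum_mul_right]
  exact (summable_att h r).tsum_le_tsum (fun k => mul_le_mul_of_nonneg_left
    (kern_le_const (le_trans (by norm_num) (rad_ge k)) r) (h.1 k)) (h.2.mul_right _)

lemma att_zero (τ : ℕ → ℝ) : att τ 0 = 0 := by simp [att, kern_zero]

lemma ptl_zero (κ : ℝ) (τ : ℕ → ℝ) : ptl κ τ 0 = 0 := by simp [ptl, core_zero, att_zero]

lemma ptl_nonpos {τ : ℕ → ℝ} (h : Adm τ) (κ : ℝ) {r : ℝ} (hr : 1 ≤ r) : ptl κ τ r ≤ 0 := by
  simp [ptl, core_zero_of_one_le hr, att_nonneg h r]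

lemma measurable_core : Measurable core := by
  unfold core
  exact Measurable.ite (measurableSet_Ioi.inter measurableSet_Iio) (by fun_prop) measurable_const

lemma measurable_kern (R : ℝ) : Measurable (kern R) := by
  unfold kern
  exact Measurable.ite (measurableSet_Ioi.inter measurableSet_Iio) measurable_const measurable_const

lemma measurable_att {τ : ℕ → ℝ} (h : Adm τ) : Measurable (att τ) := by
  refine measurable_of_tendsto_metrizable
    (f := fun n r => ∑ k ∈ Finset.range n, τ k * kern (rad k) r)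
    (fun n => Finset.measurable_sum _ (fun k _ => (measurable_kern _).const_mul _)) ?_
  exact tendsto_pi_nhds.2 (fun r => (summable_att h r).hasSum.tendsto_sum_nat)

lemma measurable_ptl {τ : ℕ → ℝ} (h : Adm τ) (κ : ℝ) : Measurable (ptl κ τ) :=
  (measurable_core.const_mul κ).sub (measurable_att h)

/-! Grids. -/

/-- Index of the grid cube of side `a` and offset `o` containing `x`. -/
noncomputable def grid (a : ℝ) (o : Fin 3 → ℝ) (x : E3) : Fin 3 → ℤ :=
  fun i => ⌊(x i + o i) / a⌋

/-- The unit cell of a point. -/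
noncomputable def cell (x : E3) : Fin 3 → ℤ := fun i => ⌊x i⌋

lemma cell_eq_grid : cell = grid 1 (fun _ => 0) := by
  funext x i; simp [cell, grid]

/-- A grid cube. -/
def gridCube (a : ℝ) (o : Fin 3 → ℝ) (b : Fin 3 → ℤ) : Set E3 :=
  {x | ∀ i, x i ∈ Set.Ico (a * b i - o i) (a * b i - o i + a)}

lemma mem_gridCube {a : ℝ} (ha : 0 < a) {o : Fin 3 → ℝ} {b : Fin 3 → ℤ} {x : E3} :
    x ∈ gridCube a o b ↔ grid a o x = b := by
  simp only [gridCube, grid, Set.mem_ofPred_eq, Set.mem_Ico, funext_iff, Int.floor_eq_iff,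
    le_div_iff₀ ha, div_lt_iff₀ ha]
  refine forall_congr' (fun i => ?_)
  constructor <;> rintro ⟨h1, h2⟩ <;> constructor <;> nlinarith

lemma measurable_grid_preimage {a : ℝ} (ha : 0 < a) (o : Fin 3 → ℝ) (b : Fin 3 → ℤ) :
    MeasurableSet (gridCube a o b) := by
  have : gridCube a o b
      = ⋂ i, (fun x : E3 => x i) ⁻¹' Set.Ico (a * b i - o i) (a * b i - o i + a) := by
    ext x; simp [gridCube]
  rw [this]
  exact MeasurableSet.iInter
    (fun i => (by fun_prop : Measurable fun x : E3 => x i) measurableSet_Ico)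

lemma volume_coord_box (lo : Fin 3 → ℝ) {a : ℝ} (ha : 0 ≤ a) :
    volume {x : E3 | ∀ i, x i ∈ Set.Ico (lo i) (lo i + a)} = ENNReal.ofReal (a ^ 3) := by
  have h : {x : E3 | ∀ i, x i ∈ Set.Ico (lo i) (lo i + a)}
      = (@WithLp.ofLp 2 (Fin 3 → ℝ)) ⁻¹' Set.univ.pi (fun i => Set.Ico (lo i) (lo i + a)) := by
    ext x; simp
  rw [h, (PiLp.volume_preserving_ofLp (Fin 3)).measure_preimage
    (MeasurableSet.pi Set.countable_univ fun i _ => measurableSet_Ico).nullMeasurableSet]
  rw [volume_pi_pi]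
  simp [← ENNReal.ofReal_pow ha]

lemma volume_gridCube {a : ℝ} (ha : 0 ≤ a) (o : Fin 3 → ℝ) (b : Fin 3 → ℤ) :
    volume (gridCube a o b) = ENNReal.ofReal (a ^ 3) :=
  volume_coord_box (fun i => a * b i - o i) ha

lemma dist_lt_of_coord {x y : E3} {a : ℝ} (ha : 0 < a) (h : ∀ i, |x i - y i| < a) :
    dist x y < 2 * a := by
  rw [EuclideanSpace.dist_eq, Real.sqrt_lt' (by linarith)]
  simp only [Fin.sum_univ_three, Real.dist_eq, sq_abs]
  have h0 := sq_lt_sq' (abs_lt.1 (h 0)).1 (abs_lt.1 (h 0)).2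
  have h1 := sq_lt_sq' (abs_lt.1 (h 1)).1 (abs_lt.1 (h 1)).2
  have h2 := sq_lt_sq' (abs_lt.1 (h 2)).1 (abs_lt.1 (h 2)).2
  nlinarith

lemma dist_lt_of_grid_eq {a : ℝ} (ha : 0 < a) {o : Fin 3 → ℝ} {x y : E3}
    (h : grid a o x = grid a o y) : dist x y < 2 * a := by
  refine dist_lt_of_coord ha (fun i => ?_)
  have hx := (mem_gridCube ha).2 h i
  have hy := (mem_gridCube ha).2 (rfl : grid a o y = grid a o y) i
  simp only [Set.mem_Ico] at hx hy
  rw [abs_lt]; constructor <;> linarith [hx.1, hx.2, hy.1, hy.2]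

lemma abs_sub_le_dist (x y : E3) (i : Fin 3) : |x i - y i| ≤ dist x y := by
  rw [EuclideanSpace.dist_eq]
  refine Real.le_sqrt_of_sq_le ?_
  rw [sq_abs]
  refine le_trans ?_ (Finset.single_le_sum (fun j _ => sq_nonneg (dist (x j) (y j)))
    (Finset.mem_univ i))
  simp [Real.dist_eq, sq_abs]

lemma card_cubes_in_ball {a : ℝ} (ha : 0 < a) {o : Fin 3 → ℝ} {c : E3} {r : ℝ} (hr : 0 ≤ r)
    (S : Finset (Fin 3 → ℤ)) (h : ∀ b ∈ S, gridCube a o b ⊆ ball c r) :
    (S.card : ℝ) * a ^ 3 ≤ r ^ 3 * v1 := by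
  have hd : (↑S : Set (Fin 3 → ℤ)).PairwiseDisjoint (gridCube a o) := by
    intro b _ b' _ hbb
    exact Set.disjoint_left.2 (fun x hx hx' =>
      hbb ((mem_gridCube ha).1 hx ▸ (mem_gridCube ha).1 hx'))
  have := measure_biUnion_finset (μ := (volume : Measure E3)) hd
    (fun b _ => measurable_grid_preimage ha o b)
  have hle : volume (⋃ b ∈ S, gridCube a o b) ≤ volume (ball c r) :=
    measure_mono (Set.iUnion₂_subset h)
  rw [this, volume_ball_eq c hr] at hle
  simp only [volume_gridCube ha.le, Finset.sum_const, nsmul_eq_mul,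
    ← ENNReal.ofReal_natCast] at hle
  rw [← ENNReal.ofReal_mul (Nat.cast_nonneg _)] at hle
  exact (ENNReal.ofReal_le_ofReal_iff (by have := v1_pos; positivity)).1 hle

/-! Pair sums. -/

variable {N : ℕ}

/-- Ordered double sum of `p` over all pairs. -/
noncomputable def pairs (x : Fin N → E3) (p : ℝ → ℝ) : ℝ :=
  ∑ i, ∑ j, p (dist (x i) (x j))

/-- Ordered double sum of `p` over pairs with the same label. -/
noncomputable def pairsIn {κ : Type} [DecidableEq κ] (f : Fin N → κ) (x : Fin N → E3)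
    (p : ℝ → ℝ) : ℝ :=
  ∑ i, ∑ j, if f i = f j then p (dist (x i) (x j)) else 0

/-- Number of ordered pairs with the same label. -/
noncomputable def same {κ : Type} [DecidableEq κ] (f : Fin N → κ) : ℝ :=
  ∑ i : Fin N, ∑ j : Fin N, if f i = f j then 1 else 0

lemma same_eq_sum_sq {κ : Type} [DecidableEq κ] (f : Fin N → κ) :
    same f = ∑ b ∈ Finset.univ.image f,
      ((Finset.univ.filter (fun i => f i = b)).card : ℝ) ^ 2 := by
  unfold same
  simp only [Finset.sum_boole]
  rw [← Finset.sum_fiberwise_of_maps_to (g := f) (t := Finset.univ.image f)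
    (fun i _ => Finset.mem_image_of_mem f (Finset.mem_univ i))]
  refine Finset.sum_congr rfl (fun b _ => ?_)
  rw [Finset.sum_congr rfl (g := fun _ => ((Finset.univ.filter (fun i => f i = b)).card : ℝ))]
  · simp [sq]
  · intro i hi
    simp only [Finset.mem_filter] at hi
    simp [hi.2, eq_comm]

open Classical in
lemma pair_count {κ : Type} [DecidableEq κ] (f : Fin N → κ) (rel : κ → κ → Prop)
    (hsymm : ∀ a b, rel a b → rel b a) {M : ℝ} (hM0 : 0 ≤ M)
    (hM : ∀ i, (((Finset.univ.image f).filter (rel (f i))).card : ℝ) ≤ M) :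
    (∑ i, ∑ j, if rel (f i) (f j) then (1 : ℝ) else 0) ≤ M * same f := by
  set S := Finset.univ.image f
  set n : κ → ℝ := fun b => ((Finset.univ.filter (fun i => f i = b)).card : ℝ)
  have h1 : ∀ F : κ → ℝ, ∑ i, F (f i) = ∑ b ∈ S, n b * F b := by
    intro F
    rw [Finset.sum_comp]
    simp [S, n, nsmul_eq_mul]
  have h2 : (∑ i, ∑ j, if rel (f i) (f j) then (1 : ℝ) else 0)
      = ∑ b ∈ S, ∑ c ∈ S, if rel b c then n b * n c else 0 := by
    rw [Finset.sum_congr rfl (fun i _ => h1 (fun c => if rel (f i) c then (1 : ℝ) else 0)),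
      h1 (fun b => ∑ c ∈ S, n c * if rel b c then (1 : ℝ) else 0)]
    refine Finset.sum_congr rfl (fun b _ => ?_)
    rw [Finset.mul_sum]
    refine Finset.sum_congr rfl (fun c _ => ?_)
    split_ifs <;> simp
  have h3 : ∀ b c, (if rel b c then n b * n c else 0)
      ≤ (if rel b c then n b ^ 2 / 2 else 0) + (if rel c b then n c ^ 2 / 2 else 0) := by
    intro b c
    by_cases h : rel b c
    · simp only [h, hsymm _ _ h, if_true]; nlinarith [sq_nonneg (n b - n c)]
    · simp only [h, mt (hsymm c b) h, if_false]; simp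
  have hdeg : ∀ b ∈ S, ((S.filter (rel b)).card : ℝ) ≤ M := by
    intro b hb
    obtain ⟨i, _, rfl⟩ := Finset.mem_image.1 hb
    exact hM i
  have h4 : ∑ b ∈ S, ∑ c ∈ S, (if rel b c then n b ^ 2 / 2 else 0) ≤ M * same f / 2 := by
    rw [same_eq_sum_sq, Finset.mul_sum, Finset.sum_div]
    refine Finset.sum_le_sum (fun b hb => ?_)
    rw [← Finset.sum_filter, Finset.sum_const, nsmul_eq_mul]
    have := hdeg b hb
    show _ ≤ M * n b ^ 2 / 2
    nlinarith [sq_nonneg (n b), this]
  rw [h2]
  refine (Finset.sum_le_sum (fun b _ => Finset.sum_le_sum (fun c _ => h3 b c))).trans ?_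
  simp only [Finset.sum_add_distrib]
  rw [Finset.sum_comm (f := fun b c => if rel c b then n c ^ 2 / 2 else 0)]
  linarith

lemma count_close {a : ℝ} (ha : 0 < a) (o : Fin 3 → ℝ) (x : Fin N → E3) {R : ℝ} (hR : 0 ≤ R) :
    (∑ i, ∑ j, if dist (x i) (x j) < R then (1 : ℝ) else 0)
      ≤ (R + 4 * a) ^ 3 * v1 / a ^ 3 * same (fun i => grid a o (x i)) := by
  classical
  set f := fun i => grid a o (x i)
  set rel : (Fin 3 → ℤ) → (Fin 3 → ℤ) → Prop :=
    fun b c => ∃ y z : E3, grid a o y = b ∧ grid a o z = c ∧ dist y z < R with hrel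
  have hv := v1_pos
  refine le_trans (Finset.sum_le_sum (fun i _ => Finset.sum_le_sum (fun j _ => ?_)))
    (pair_count f rel ?_ (by positivity) ?_)
  · by_cases h : dist (x i) (x j) < R
    · rw [if_pos h, if_pos]
      exact ⟨x i, x j, rfl, rfl, h⟩
    · rw [if_neg h]; split_ifs <;> norm_num
  · rintro b c ⟨y, z, hy, hz, h⟩
    exact ⟨z, y, hz, hy, by rwa [dist_comm]⟩
  · intro i
    rw [le_div_iff₀ (by positivity)]
    refine card_cubes_in_ball ha (o := o) (c := x i) (by linarith) _ (fun b hb z hz => ?_)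
    obtain ⟨-, y, w, hy, hw, hyw⟩ := Finset.mem_filter.1 hb
    have h1 : dist z w < 2 * a := dist_lt_of_grid_eq ha (((mem_gridCube ha).1 hz).trans hw.symm)
    have h2 : dist y (x i) < 2 * a := dist_lt_of_grid_eq ha hy
    rw [mem_ball]
    have h3 := dist_triangle4 z w y (x i)
    rw [dist_comm w y] at h3
    linarith

lemma pairs_kern_le {a : ℝ} (ha : 0 < a) (o : Fin 3 → ℝ) (x : Fin N → E3) {R : ℝ} (hR : 0 < R) :
    pairs x (kern R) ≤ ((R + 4 * a) / R) ^ 3 / a ^ 3 * same (fun i => grid a o (x i)) := by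
  have hv := v1_pos
  have hc := count_close ha o x hR.le
  calc pairs x (kern R)
      ≤ ∑ i, ∑ j, (v1 * R ^ 3)⁻¹ * (if dist (x i) (x j) < R then (1 : ℝ) else 0) := by
        refine Finset.sum_le_sum (fun i _ => Finset.sum_le_sum (fun j _ => ?_))
        refine (kern_le hR.le _).trans (le_of_eq ?_)
        split_ifs <;> simp
    _ = (v1 * R ^ 3)⁻¹ * ∑ i, ∑ j, (if dist (x i) (x j) < R then (1 : ℝ) else 0) := by
        simp only [Finset.mul_sum]
    _ ≤ (v1 * R ^ 3)⁻¹ *
          ((R + 4 * a) ^ 3 * v1 / a ^ 3 * same (fun i => grid a o (x i))) :=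
        mul_le_mul_of_nonneg_left hc (by positivity)
    _ = _ := by field_simp

lemma pairs_att {τ : ℕ → ℝ} (h : Adm τ) (x : Fin N → E3) :
    HasSum (fun k => τ k * pairs x (kern (rad k))) (pairs x (att τ)) := by
  unfold pairs
  simp only [Finset.mul_sum]
  exact hasSum_sum (fun i _ => hasSum_sum (fun j _ => (summable_att h _).hasSum))

lemma pairs_kern_cell (k : ℕ) (x : Fin N → E3) :
    pairs x (kern (rad k)) ≤ 2 * same (fun i => cell (x i)) := by
  have hR := rad_ge k
  rw [cell_eq_grid]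
  refine (pairs_kern_le one_pos (fun _ => 0) x (rad_pos k)).trans ?_
  refine mul_le_mul_of_nonneg_right ?_ ?_
  · rw [one_pow, div_one, div_pow, div_le_iff₀ (pow_pos (rad_pos k) 3)]
    have h1 : (rad k + 4 * 1) ≤ 25 / 24 * rad k := by linarith
    refine (pow_le_pow_left₀ (by linarith) h1 3).trans ?_
    rw [mul_pow]
    have := pow_pos (rad_pos k) 3
    nlinarith
  · exact Finset.sum_nonneg (fun i _ => Finset.sum_nonneg (fun j _ => by split_ifs <;> norm_num))

lemma pairs_att_le {τ : ℕ → ℝ} (h : Adm τ) (x : Fin N → E3) :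
    pairs x (att τ) ≤ 2 * tot τ * same (fun i => cell (x i)) := by
  refine hasSum_le (fun k => ?_) (pairs_att h x)
    ((h.2.hasSum.mul_left 2).mul_right (same (fun i => cell (x i))))
  have h1 := mul_le_mul_of_nonneg_left (pairs_kern_cell k x) (h.1 k)
  calc _ ≤ τ k * (2 * same (fun i => cell (x i))) := h1
    _ = _ := by ring

/-- A configuration has no coincident points. -/
def Inj (x : Fin N → E3) : Prop := Function.Injective x

lemma same_nonneg {κ : Type} [DecidableEq κ] (f : Fin N → κ) : 0 ≤ same f :=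
  Finset.sum_nonneg (fun i _ => Finset.sum_nonneg (fun j _ => by split_ifs <;> norm_num))

lemma cell_sub_grid {m : ℕ} (hm : 0 < m) (x : E3) (i : Fin 3) :
    grid ((m : ℝ)⁻¹) (fun _ => 0) x i / (m : ℤ) = cell x i := by
  simp only [grid, cell, add_zero, div_inv_eq_mul]
  rw [← Int.floor_div_natCast]
  have : (m : ℝ) ≠ 0 := by positivity
  rw [mul_div_assoc, div_self this, mul_one]

/-- Stability core estimate. -/
lemma same_cell_le {m : ℕ} (hm : 2 ≤ m) {x : Fin N → E3} (hx : Function.Injective x) :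
    same (fun i => cell (x i))
      ≤ (m : ℝ) ^ 3 * N + 27 / (m : ℝ) ^ 3 * pairsIn (fun i => cell (x i)) x core := by
  classical
  have hm' : (2 : ℝ) ≤ m := by exact_mod_cast hm
  have hm0 : (0 : ℝ) < m := by linarith
  set g := fun i => grid ((m : ℝ)⁻¹) (fun _ => 0) (x i) with hg
  have hA : same (fun i => cell (x i)) ≤ (m : ℝ) ^ 3 * same g := by
    refine le_trans (le_of_eq ?_) (pair_count g
      (fun b c => ∀ i, b i / (m : ℤ) = c i / (m : ℤ)) (fun b c h i => (h i).symm)
      (by positivity) ?_)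
    · unfold same
      refine Finset.sum_congr rfl (fun i _ => Finset.sum_congr rfl (fun j _ => ?_))
      have : (cell (x i) = cell (x j)) ↔
          ∀ c, g i c / (m : ℤ) = g j c / (m : ℤ) := by
        simp only [hg, cell_sub_grid (by omega : 0 < m), funext_iff]
      by_cases h : cell (x i) = cell (x j)
      · rw [if_pos h, if_pos (this.1 h)]
      · rw [if_neg h, if_neg (mt this.2 h)]
    · intro i
      set C : Fin 3 → ℤ := fun c => g i c / (m : ℤ)
      have hsub : (Finset.univ.image g).filter (fun b => ∀ c, g i c / (m : ℤ) = b c / (m : ℤ))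
          ⊆ Fintype.piFinset (fun c => Finset.Ico ((m : ℤ) * C c) ((m : ℤ) * C c + m)) := by
        intro b hb
        rw [Fintype.mem_piFinset]
        intro c
        have h := (Finset.mem_filter.1 hb).2 c
        have h1 := Int.emod_add_mul_ediv (b c) (m : ℤ)
        have h2 := Int.emod_nonneg (b c) (by omega : (m : ℤ) ≠ 0)
        have h3 := Int.emod_lt_of_pos (b c) (by omega : (0 : ℤ) < m)
        simp only [C, Finset.mem_Ico, h]
        constructor <;> linarith
      have := Finset.card_le_card hsub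
      simp only [Fintype.card_piFinset, Int.card_Ico, add_sub_cancel_left, Int.toNat_natCast,
        Finset.prod_const, Finset.card_univ, Fintype.card_fin] at this
      refine le_trans ?_ (le_of_eq (show (((m ^ 3 : ℕ)) : ℝ) = (m : ℝ) ^ 3 by norm_num))
      exact Nat.cast_le.2 (le_trans (le_of_eq (by congr 1; exact Finset.filter_congr_decidable ..)) this)
  have hB : same g ≤ N + 27 / (m : ℝ) ^ 6 * pairsIn (fun i => cell (x i)) x core := by
    have hN : (N : ℝ) = ∑ i : Fin N, ∑ j : Fin N, (if i = j then 1 else 0 : ℝ) := by simp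
    rw [hN, pairsIn, Finset.mul_sum, ← Finset.sum_add_distrib]
    refine Finset.sum_le_sum (fun i _ => ?_)
    rw [Finset.mul_sum, ← Finset.sum_add_distrib]
    refine Finset.sum_le_sum (fun j _ => ?_)
    have hnn : 0 ≤ 27 / (m : ℝ) ^ 6 *
        (if cell (x i) = cell (x j) then core (dist (x i) (x j)) else 0) := by
      have := core_nonneg (dist (x i) (x j))
      split_ifs <;> positivity
    by_cases h : g i = g j
    · rw [if_pos h]
      by_cases hij : i = j
      · simp only [hij, if_true] at hnn ⊢; linarith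
      · have hcell : cell (x i) = cell (x j) := by
          funext c
          rw [← cell_sub_grid (by omega : 0 < m) (x i) c, ← cell_sub_grid (by omega : 0 < m) (x j) c]
          exact congrArg (· / (m : ℤ)) (congrFun h c)
        have hd0 : 0 < dist (x i) (x j) := dist_pos.2 (fun h' => hij (hx h'))
        have hsq : dist (x i) (x j) ^ 2 < 3 / (m : ℝ) ^ 2 := by
          rw [EuclideanSpace.dist_sq_eq, Fin.sum_univ_three]
          have hc : ∀ c, dist (x i c) (x j c) ^ 2 < 1 / (m : ℝ) ^ 2 := by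
            intro c
            have e := congrFun h c
            simp only [hg, grid, add_zero, div_inv_eq_mul] at e
            have := Int.abs_sub_lt_one_of_floor_eq_floor e
            rw [← sub_mul, abs_mul, abs_of_pos hm0] at this
            rw [Real.dist_eq, lt_div_iff₀ (by positivity), ← mul_pow, ← one_pow 2]
            exact pow_lt_pow_left₀ this (by positivity) two_ne_zero
          have h0 := hc 0
          have h1 := hc 1
          have h2 := hc 2
          have : 3 / (m : ℝ) ^ 2 = 1 / (m : ℝ) ^ 2 + 1 / (m : ℝ) ^ 2 + 1 / (m : ℝ) ^ 2 := by ring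
          linarith
        have hlt : dist (x i) (x j) < 1 := by
          have : 3 / (m : ℝ) ^ 2 ≤ 3 / 4 := by
            gcongr; nlinarith
          nlinarith
        simp only [hcell, hij, core, hd0, hlt, and_self, if_true, if_false, zero_add]
        rw [← div_eq_mul_inv, le_div_iff₀ (pow_pos hd0 6), one_mul]
        have h6 : dist (x i) (x j) ^ 6 = (dist (x i) (x j) ^ 2) ^ 3 := by ring
        have h6' : 27 / (m : ℝ) ^ 6 = (3 / (m : ℝ) ^ 2) ^ 3 := by ring
        rw [h6, h6']
        exact pow_le_pow_left₀ (sq_nonneg _) hsq.le 3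
    · rw [if_neg h]
      split_ifs at hnn ⊢ <;> linarith
  calc _ ≤ (m : ℝ) ^ 3 * same g := hA
    _ ≤ (m : ℝ) ^ 3 * (N + 27 / (m : ℝ) ^ 6 * pairsIn (fun i => cell (x i)) x core) :=
        mul_le_mul_of_nonneg_left hB (by positivity)
    _ = _ := by field_simp

end Vale.Agent.P171
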