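import Vale.Agent.P171.Kernels
import Vale.Agent.P171.Factor

/-!
Stability bounds, superadditivity and the existence of the pressure.
-/

namespace Vale.Agent.P171

open MeasureTheory Set Filter Metric
open scoped ENNReal Topology

variable {N : ℕ}

lemma en_conf_ptl {τ : ℕ → ℝ} (κ ν : ℝ) (x : Fin N → E3) :
    en (ptl κ τ) ν (conf x) = (κ * pairs x core - pairs x (att τ)) / 2 - ν * N := by
  rw [en_conf]
  simp [pairs, ptl, Finset.sum_sub_distrib, Finset.mul_sum]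

lemma pairsIn_le_pairs {κ : Type} [DecidableEq κ] (f : Fin N → κ) (x : Fin N → E3)
    {p : ℝ → ℝ} (hp : ∀ r, 0 ≤ p r) : pairsIn f x p ≤ pairs x p :=
  Finset.sum_le_sum (fun i _ => Finset.sum_le_sum (fun j _ => by
    split_ifs
    · exact le_rfl
    · exact hp _))

lemma pairs_core_nonneg (x : Fin N → E3) : 0 ≤ pairs x core :=
  Finset.sum_nonneg (fun i _ => Finset.sum_nonneg (fun j _ => core_nonneg _))

/-- Super-stability: the core dominates any multiple of the sum of squared cell numbers. -/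
lemma exists_core_bound {κ : ℝ} (hκ : 0 < κ) (M : ℝ) :
    ∃ B : ℝ, 0 ≤ B ∧ ∀ (N : ℕ) (x : Fin N → E3), Function.Injective x →
      M * same (fun i => cell (x i)) ≤ κ * pairs x core + B * N := by
  obtain ⟨m, hm⟩ := exists_nat_ge (max 2 (max M 0 * 27 / κ))
  have hm2 : (2 : ℝ) ≤ m := le_trans (le_max_left _ _) hm
  have hm0 : (0 : ℝ) < m := by linarith
  have hmM : max M 0 * 27 / κ ≤ m := le_trans (le_max_right _ _) hm
  refine ⟨max M 0 * (m : ℝ) ^ 3, by positivity, fun N x hx => ?_⟩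
  have h1 := same_cell_le (m := m) (by exact_mod_cast hm2) hx
  have h2 := pairsIn_le_pairs (fun i => cell (x i)) x core_nonneg
  have h3 : max M 0 * (27 / (m : ℝ) ^ 3) ≤ κ := by
    rw [← mul_div_assoc, div_le_iff₀ (by positivity)]
    rw [div_le_iff₀ hκ] at hmM
    have : (m : ℝ) ≤ (m : ℝ) ^ 3 := by nlinarith [mul_le_mul hm2 hm2 (by norm_num) hm0.le]
    nlinarith
  have hp := pairs_core_nonneg x
  calc M * same (fun i => cell (x i)) ≤ max M 0 * same (fun i => cell (x i)) :=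
        mul_le_mul_of_nonneg_right (le_max_left _ _) (same_nonneg _)
    _ ≤ max M 0 * ((m : ℝ) ^ 3 * N + 27 / (m : ℝ) ^ 3 * pairs x core) := by
        refine mul_le_mul_of_nonneg_left (h1.trans ?_) (le_max_right _ _)
        gcongr
    _ ≤ _ := by nlinarith [mul_le_mul_of_nonneg_right h3 hp]

/-- Uniform stability. -/
lemma exists_energy_bound {κ : ℝ} (hκ : 0 < κ) (T V : ℝ) :
    ∃ B : ℝ, ∀ τ : ℕ → ℝ, Adm τ → tot τ ≤ T → ∀ ν ≤ V, ∀ (N : ℕ) (x : Fin N → E3),
      Function.Injective x → -(B * N) ≤ en (ptl κ τ) ν (conf x) := by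
  obtain ⟨B, -, hB⟩ := exists_core_bound hκ (2 * T)
  refine ⟨B / 2 + V, fun τ hτ hT ν hν N x hx => ?_⟩
  rw [en_conf_ptl]
  have h1 := pairs_att_le hτ x
  have h2 : 2 * tot τ * same (fun i => cell (x i)) ≤ 2 * T * same (fun i => cell (x i)) :=
    mul_le_mul_of_nonneg_right (by linarith) (same_nonneg _)
  have h3 := hB N x hx
  have h4 : ν * (N : ℝ) ≤ V * N := mul_le_mul_of_nonneg_right hν (Nat.cast_nonneg _)
  nlinarith

/-! Grand canonical integrals. -/

lemma ae_injective (N : ℕ) : ∀ᵐ x : Fin N → E3, Function.Injective x := by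
  have h : ∀ p : Fin N × Fin N, p.1 ≠ p.2 → ∀ᵐ x : Fin N → E3, x p.1 ≠ x p.2 := by
    intro p hp
    rw [ae_iff]
    simp only [not_not]
    let S : Submodule ℝ (Fin N → E3) :=
      LinearMap.ker ((LinearMap.proj p.1 : (Fin N → E3) →ₗ[ℝ] E3) - LinearMap.proj p.2)
    have hS : S ≠ ⊤ := by
      intro hS
      have : (Pi.single p.1 (EuclideanSpace.single (0 : Fin 3) (1 : ℝ)) : Fin N → E3) ∈ S :=
        hS ▸ Submodule.mem_top
      have h' := congrArg (fun v : E3 => v 0)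
        (by simpa [S, sub_eq_zero, Pi.single_eq_same, Pi.single_eq_of_ne hp.symm] using this :
          EuclideanSpace.single (0 : Fin 3) (1 : ℝ) = 0)
      simp at h'
    refine le_antisymm (le_of_le_of_eq (measure_mono ?_)
      (Measure.addHaar_submodule (volume : Measure (Fin N → E3)) S hS)) bot_le
    intro x hx
    simpa [S, sub_eq_zero] using hx
  have : ∀ᵐ x : Fin N → E3, ∀ p : Fin N × Fin N, p.1 ≠ p.2 → x p.1 ≠ x p.2 := by
    refine ae_all_iff.2 (fun p => ?_)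
    by_cases hp : p.1 = p.2
    · exact Eventually.of_forall (fun _ h => absurd hp h)
    · filter_upwards [h p hp] with x hx using fun _ => hx
  filter_upwards [this] with x hx i j hij
  by_contra hne
  exact hx (i, j) hne hij

lemma gint_mono {A : Set E3} (hA : MeasurableSet A) {g g' : Multiset E3 → ℝ≥0∞}
    (h : ∀ (N : ℕ) (x : Fin N → E3), Function.Injective x → (∀ i, x i ∈ A) →
      g (conf x) ≤ g' (conf x)) : gint A g ≤ gint A g' := by
  refine ENNReal.tsum_le_tsum (fun N => mul_le_mul' le_rfl (lintegral_mono_ae ?_))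
  filter_upwards [ae_restrict_of_ae (ae_injective N),
    ae_restrict_mem (measurableSet_pattern fun _ => hA)] with x hx hxA
  exact h N x hx (fun i => hxA i (mem_univ _))

lemma gint_mono_set {A B : Set E3} (h : A ⊆ B) (g : Multiset E3 → ℝ≥0∞) :
    gint A g ≤ gint B g :=
  ENNReal.tsum_le_tsum (fun _ => mul_le_mul' le_rfl
    (lintegral_mono' (Measure.restrict_mono (Set.pi_mono fun _ _ => h) le_rfl) le_rfl))

lemma gint_const_mul (A : Set E3) {c : ℝ≥0∞} (hc : c ≠ ∞) (g : Multiset E3 → ℝ≥0∞) :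
    gint A (fun m => c * g m) = c * gint A g := by
  unfold gint cint
  simp_rw [lintegral_const_mul' c _ hc]
  rw [← ENNReal.tsum_mul_left]
  exact tsum_congr (fun N => by ring)

lemma le_gint (A : Set E3) (g : Multiset E3 → ℝ≥0∞) : g 0 ≤ gint A g := by
  refine le_trans (le_of_eq ?_) (ENNReal.le_tsum 0)
  simp [cint, conf, volume_pi]

lemma gint_le_exp {A : Set E3} (hA : MeasurableSet A) {V : ℝ} (hV : 0 ≤ V)
    (hvol : volume A ≤ ENNReal.ofReal V) {g : Multiset E3 → ℝ≥0∞} {Q B : ℝ}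
    (h : ∀ (N : ℕ) (x : Fin N → E3), Function.Injective x → (∀ i, x i ∈ A) →
      g (conf x) ≤ ENNReal.ofReal (Real.exp (Q + B * N))) :
    gint A g ≤ ENNReal.ofReal (Real.exp (Q + V * Real.exp B)) := by
  have h1 : gint A g ≤ gint A (fun m => ENNReal.ofReal (Real.exp (Q + B * Multiset.card m))) :=
    gint_mono hA (fun N x hx hxA => (h N x hx hxA).trans (by simp [conf_card]))
  refine h1.trans ?_
  have h2 : ∀ N : ℕ, ((N.factorial : ℝ≥0∞))⁻¹ *
      cint (Fin N) A (fun m => ENNReal.ofReal (Real.exp (Q + B * Multiset.card m)))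
      ≤ ENNReal.ofReal (Real.exp Q * ((V * Real.exp B) ^ N / N.factorial)) := by
    intro N
    unfold cint
    simp only [conf_card, Fintype.card_fin, lintegral_const, Measure.restrict_apply_univ,
      volume_pi_pi, Finset.prod_const, Finset.card_univ]
    refine (mul_le_mul' le_rfl (mul_le_mul' le_rfl (pow_le_pow_left' hvol N))).trans (le_of_eq ?_)
    rw [← ENNReal.ofReal_pow hV, ← ENNReal.ofReal_natCast N.factorial,
      ← ENNReal.ofReal_inv_of_pos (by positivity), ← ENNReal.ofReal_mul (Real.exp_pos _).le,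
      ← ENNReal.ofReal_mul (by positivity)]
    congr 1
    rw [Real.exp_add, mul_comm B, Real.exp_nat_mul, mul_pow]
    field_simp
  refine (ENNReal.tsum_le_tsum h2).trans (le_of_eq ?_)
  have hs : HasSum (fun N : ℕ => Real.exp Q * ((V * Real.exp B) ^ N / N.factorial))
      (Real.exp (Q + V * Real.exp B)) := by
    rw [Real.exp_add]
    refine HasSum.mul_left _ ?_
    rw [Real.exp_eq_exp_ℝ]
    exact NormedSpace.expSeries_div_hasSum_exp _
  rw [← ENNReal.ofReal_tsum_of_nonneg (fun N => by positivity) hs.summable, hs.tsum_eq]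

lemma volume_box {L : ℝ} (hL : 0 ≤ L) : volume (box L) = ENNReal.ofReal (L ^ 3) := by
  have h : box L = (@WithLp.ofLp 2 (Fin 3 → ℝ)) ⁻¹' Set.univ.pi (fun _ => Set.Icc 0 L) := by
    ext x; simp only [box, Set.mem_ofPred_eq, Set.mem_preimage, Set.mem_univ_pi]
  rw [h, (PiLp.volume_preserving_ofLp (Fin 3)).measure_preimage
    (MeasurableSet.pi Set.countable_univ fun i _ => measurableSet_Icc).nullMeasurableSet,
    volume_pi_pi]
  simp [← ENNReal.ofReal_pow hL]

/-- Translate of a set. -/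
def shift (v : E3) (A : Set E3) : Set E3 := (fun y => y - v) ⁻¹' A

lemma gint_shift (v : E3) {A : Set E3} {g : Multiset E3 → ℝ≥0∞}
    (hg : ∀ m, g (m.map (fun y => y - v)) = g m) : gint (shift v A) g = gint A g := by
  unfold gint
  refine tsum_congr (fun N => ?_)
  congr 1
  unfold cint
  set w : Fin N → E3 := fun _ => -v
  have hmp : MeasurePreserving (MeasurableEquiv.addRight w) (volume : Measure (Fin N → E3))
      volume := measurePreserving_add_right volume w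
  rw [← hmp.setLIntegral_comp_preimage_emb (MeasurableEquiv.measurableEmbedding _)
    (fun x => g (conf x)) (Set.univ.pi fun _ => A)]
  have hpre : (MeasurableEquiv.addRight w) ⁻¹' (Set.univ.pi fun _ : Fin N => A)
      = Set.univ.pi (fun _ : Fin N => shift v A) := by
    ext x; simp [shift, w, sub_eq_add_neg]
  rw [hpre]
  refine lintegral_congr (fun x => ?_)
  rw [← hg (conf x)]
  simp [conf, w, Multiset.map_map, Function.comp_def, sub_eq_add_neg, Pi.add_def]

lemma wt_map_sub (p : ℝ → ℝ) (ν : ℝ) (v : E3) (m : Multiset E3) :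
    wt p ν (m.map (fun y => y - v)) = wt p ν m := by
  simp [wt, en, Multiset.map_map, Function.comp_def, dist_sub_right]

/-- Finite-volume grand canonical sum. -/
noncomputable def Xi (κ : ℝ) (τ : ℕ → ℝ) (ν : ℝ) (A : Set E3) : ℝ≥0∞ :=
  gint A (wt (ptl κ τ) ν)

/-- Logarithm of the grand canonical sum of the box. -/
noncomputable def logXi (κ : ℝ) (τ : ℕ → ℝ) (ν L : ℝ) : ℝ :=
  Real.log (Xi κ τ ν (box L)).toReal

lemma one_le_Xi (κ : ℝ) (τ : ℕ → ℝ) (ν : ℝ) (A : Set E3) : 1 ≤ Xi κ τ ν A := by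
  refine le_trans (le_of_eq ?_) (le_gint A _)
  simp [wt, en]

lemma Xi_lt_top {κ : ℝ} (hκ : 0 < κ) {τ : ℕ → ℝ} (hτ : Adm τ) (ν L : ℝ) :
    Xi κ τ ν (box L) < ∞ := by
  obtain ⟨B, hB⟩ := exists_energy_bound hκ (tot τ) ν
  have hsub : box L ⊆ box (max L 0) :=
    fun x hx i => ⟨(hx i).1, le_trans (hx i).2 (le_max_left _ _)⟩
  have h : Xi κ τ ν (box L) ≤ Xi κ τ ν (box (max L 0)) := gint_mono_set hsub _
  refine lt_of_le_of_lt (h.trans (gint_le_exp (Q := 0) (B := B) (measurableSet_box _)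
    (V := (max L 0) ^ 3) (by positivity) (volume_box (le_max_right _ _)).le
    (fun N x hx _ => ?_))) ENNReal.ofReal_lt_top
  have := hB τ hτ le_rfl ν le_rfl N x hx
  exact ENNReal.ofReal_le_ofReal (Real.exp_le_exp.2 (by linarith))

lemma Xi_le_exp_logXi {κ : ℝ} (hκ : 0 < κ) {τ : ℕ → ℝ} (hτ : Adm τ) (ν L : ℝ) :
    Xi κ τ ν (box L) = ENNReal.ofReal (Real.exp (logXi κ τ ν L)) := by
  have h1 := one_le_Xi κ τ ν (box L)
  have h2 := (Xi_lt_top hκ hτ ν L).ne
  have hpos : 0 < (Xi κ τ ν (box L)).toReal :=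
    ENNReal.toReal_pos (fun h => by simp [h] at h1) h2
  rw [logXi, Real.exp_log hpos, ENNReal.ofReal_toReal h2]

lemma logXi_le_of {κ : ℝ} (hκ : 0 < κ) {τ : ℕ → ℝ} (hτ : Adm τ) {ν L Q : ℝ}
    (h : Xi κ τ ν (box L) ≤ ENNReal.ofReal (Real.exp Q)) : logXi κ τ ν L ≤ Q := by
  rw [Xi_le_exp_logXi hκ hτ] at h
  exact Real.exp_le_exp.1 ((ENNReal.ofReal_le_ofReal_iff (Real.exp_pos _).le).1 h)

lemma le_logXi_of {κ : ℝ} (hκ : 0 < κ) {τ : ℕ → ℝ} (hτ : Adm τ) {ν L Q : ℝ}
    (h : ENNReal.ofReal (Real.exp Q) ≤ Xi κ τ ν (box L)) : Q ≤ logXi κ τ ν L := by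
  rw [Xi_le_exp_logXi hκ hτ] at h
  exact Real.exp_le_exp.1 ((ENNReal.ofReal_le_ofReal_iff (Real.exp_pos _).le).1 h)

lemma logXi_nonneg {κ : ℝ} (hκ : 0 < κ) {τ : ℕ → ℝ} (hτ : Adm τ) (ν L : ℝ) :
    0 ≤ logXi κ τ ν L :=
  le_logXi_of hκ hτ (by simpa using one_le_Xi κ τ ν (box L))

lemma logXi_mono {κ : ℝ} (hκ : 0 < κ) {τ : ℕ → ℝ} (hτ : Adm τ) (ν : ℝ) :
    Monotone (logXi κ τ ν) := fun L L' h => by
  refine le_logXi_of hκ hτ ?_
  rw [← Xi_le_exp_logXi hκ hτ]
  have hsub : box L ⊆ box L' := fun x hx i => ⟨(hx i).1, le_trans (hx i).2 h⟩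
  exact gint_mono_set hsub _

lemma exists_logXi_bound {κ : ℝ} (hκ : 0 < κ) (T V : ℝ) :
    ∃ C : ℝ, 0 ≤ C ∧ ∀ τ : ℕ → ℝ, Adm τ → tot τ ≤ T → ∀ ν ≤ V, ∀ L : ℝ, 0 ≤ L →
      logXi κ τ ν L ≤ C * L ^ 3 := by
  obtain ⟨B, hB⟩ := exists_energy_bound hκ T V
  refine ⟨Real.exp B, (Real.exp_pos _).le, fun τ hτ hT ν hν L hL => logXi_le_of hκ hτ ?_⟩
  refine (gint_le_exp (Q := 0) (B := B) (measurableSet_box _) (pow_nonneg hL 3)
    (volume_box hL).le (fun N x hx _ => ?_)).trans (le_of_eq ?_)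
  · have := hB τ hτ hT ν hν N x hx
    exact ENNReal.ofReal_le_ofReal (Real.exp_le_exp.2 (by linarith))
  · ring_nf

/-- Convexity inequality at finite volume. -/
lemma logXi_mix {κ κ₁ κ₂ : ℝ} (hκ : 0 < κ) (hκ₁ : 0 < κ₁) (hκ₂ : 0 < κ₂) {τ τ₁ τ₂ : ℕ → ℝ}
    (hτ : Adm τ) (hτ₁ : Adm τ₁) (hτ₂ : Adm τ₂) {ν ν₁ ν₂ θ : ℝ} (h0 : 0 ≤ θ) (h1 : θ ≤ 1) (L : ℝ)
    (h : ∀ (N : ℕ) (x : Fin N → E3), Function.Injective x →
      (1 - θ) * en (ptl κ₁ τ₁) ν₁ (conf x) + θ * en (ptl κ₂ τ₂) ν₂ (conf x)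
        ≤ en (ptl κ τ) ν (conf x)) :
    logXi κ τ ν L ≤ (1 - θ) * logXi κ₁ τ₁ ν₁ L + θ * logXi κ₂ τ₂ ν₂ L := by
  set a₁ := logXi κ₁ τ₁ ν₁ L with ha₁
  set a₂ := logXi κ₂ τ₂ ν₂ L with ha₂
  set Q := (1 - θ) * a₁ + θ * a₂ with hQ
  refine logXi_le_of hκ hτ ?_
  have key : ∀ (N : ℕ) (x : Fin N → E3), Function.Injective x → (∀ i, x i ∈ box L) →
      wt (ptl κ τ) ν (conf x) ≤
        ENNReal.ofReal ((1 - θ) * Real.exp (Q - a₁)) * wt (ptl κ₁ τ₁) ν₁ (conf x)
          + ENNReal.ofReal (θ * Real.exp (Q - a₂)) * wt (ptl κ₂ τ₂) ν₂ (conf x) := by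
    intro N x hx _
    have hh := h N x hx
    unfold wt
    set e := en (ptl κ τ) ν (conf x)
    set e₁ := en (ptl κ₁ τ₁) ν₁ (conf x)
    set e₂ := en (ptl κ₂ τ₂) ν₂ (conf x)
    have hθ' : (0 : ℝ) ≤ 1 - θ := by linarith
    rw [← ENNReal.ofReal_mul (by positivity), ← ENNReal.ofReal_mul (by positivity),
      ← ENNReal.ofReal_add (by positivity) (by positivity)]
    refine ENNReal.ofReal_le_ofReal ?_
    rw [mul_assoc, mul_assoc, ← Real.exp_add, ← Real.exp_add]
    refine le_trans (Real.exp_le_exp.2 (?_ : -e ≤ (1 - θ) * (Q - a₁ + -e₁) + θ * (Q - a₂ + -e₂)))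
      (convexOn_exp.2 (mem_univ _) (mem_univ _) hθ' h0 (by ring))
    rw [hQ]; nlinarith
  refine (gint_mono (measurableSet_box L) (g' := fun m =>
      ENNReal.ofReal ((1 - θ) * Real.exp (Q - a₁)) * wt (ptl κ₁ τ₁) ν₁ m
        + ENNReal.ofReal (θ * Real.exp (Q - a₂)) * wt (ptl κ₂ τ₂) ν₂ m) key).trans ?_
  have hθ' : (0 : ℝ) ≤ 1 - θ := by linarith
  have hsplit : gint (box L) (fun m =>
      ENNReal.ofReal ((1 - θ) * Real.exp (Q - a₁)) * wt (ptl κ₁ τ₁) ν₁ m
        + ENNReal.ofReal (θ * Real.exp (Q - a₂)) * wt (ptl κ₂ τ₂) ν₂ m)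
      = ENNReal.ofReal ((1 - θ) * Real.exp (Q - a₁)) * Xi κ₁ τ₁ ν₁ (box L)
        + ENNReal.ofReal (θ * Real.exp (Q - a₂)) * Xi κ₂ τ₂ ν₂ (box L) := by
    unfold Xi
    rw [← gint_const_mul _ ENNReal.ofReal_ne_top, ← gint_const_mul _ ENNReal.ofReal_ne_top]
    unfold gint cint
    rw [← ENNReal.tsum_add]
    refine tsum_congr (fun N => ?_)
    rw [lintegral_add_left ((measG_wt (measurable_ptl hτ₁ κ₁) ν₁ N).const_mul _), mul_add]
  rw [hsplit, Xi_le_exp_logXi hκ₁ hτ₁, Xi_le_exp_logXi hκ₂ hτ₂,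
    ← ENNReal.ofReal_mul (by positivity), ← ENNReal.ofReal_mul (by positivity),
    ← ENNReal.ofReal_add (by positivity) (by positivity), mul_assoc, mul_assoc,
    ← Real.exp_add, ← Real.exp_add]
  refine le_of_eq (congrArg ENNReal.ofReal ?_)
  simp only [ha₁, ha₂, sub_add_cancel]
  ring

/-- The vector with coordinates `c i`. -/
noncomputable def vec (c : Fin 3 → ℝ) : E3 := WithLp.toLp 2 c

@[simp] lemma vec_apply (c : Fin 3 → ℝ) (i : Fin 3) : vec c i = c i := rfl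

/-- Position of a sub-box. -/
noncomputable def site (s : ℝ) {k : ℕ} (p : Fin 3 → Fin k) : E3 :=
  vec (fun i => s * ((p i : ℕ) : ℝ))

lemma mem_shift_site {s L : ℝ} {k : ℕ} {p : Fin 3 → Fin k} {x : E3} :
    x ∈ shift (site s p) (box L) ↔
      ∀ i, s * ((p i : ℕ) : ℝ) ≤ x i ∧ x i ≤ s * ((p i : ℕ) : ℝ) + L := by
  simp only [shift, Set.mem_preimage, box, Set.mem_ofPred_eq, site]
  refine forall_congr' (fun i => ?_)
  simp only [PiLp.sub_apply, vec_apply, Set.mem_Icc]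
  constructor <;> rintro ⟨a, b⟩ <;> constructor <;> linarith

lemma sites_dist {L s : ℝ} (hs : L + 1 ≤ s) (hL : 0 ≤ L) {k : ℕ} {p q : Fin 3 → Fin k}
    (hpq : p ≠ q)
    {x y : E3} (hx : x ∈ shift (site s p) (box L)) (hy : y ∈ shift (site s q) (box L)) :
    1 ≤ dist x y := by
  obtain ⟨i, hi⟩ := Function.ne_iff.1 hpq
  refine le_trans ?_ (abs_sub_le_dist x y i)
  have hx' := mem_shift_site.1 hx i
  have hy' := mem_shift_site.1 hy i
  rcases lt_or_gt_of_ne (fun h : (p i : ℕ) = (q i : ℕ) => hi (Fin.ext h)) with h | h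
  · have : ((p i : ℕ) : ℝ) + 1 ≤ (q i : ℕ) := by exact_mod_cast h
    rw [abs_sub_comm, le_abs]; left; nlinarith
  · have : ((q i : ℕ) : ℝ) + 1 ≤ (p i : ℕ) := by exact_mod_cast h
    rw [le_abs]; left; nlinarith

lemma sites_subset {L : ℝ} (hL : 0 ≤ L) {s : ℝ} (hs : L ≤ s) {k : ℕ} (p : Fin 3 → Fin k) :
    shift (site s p) (box L) ⊆ box (s * k) := by
  intro x hx i
  have h := mem_shift_site.1 hx i
  have : ((p i : ℕ) : ℝ) + 1 ≤ k := by exact_mod_cast (p i).2
  have h0 : (0 : ℝ) ≤ (p i : ℕ) := Nat.cast_nonneg _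
  constructor <;> nlinarith

open Classical in
/-- Superadditivity. -/
lemma logXi_superadd {κ : ℝ} (hκ : 0 < κ) {τ : ℕ → ℝ} (hτ : Adm τ) (ν : ℝ) {L : ℝ} (hL : 0 ≤ L)
    (k : ℕ) : (k : ℝ) ^ 3 * logXi κ τ ν L ≤ logXi κ τ ν ((L + 1) * k) := by
  refine le_logXi_of hκ hτ ?_
  set s := L + 1
  set S : (Fin 3 → Fin k) → Set E3 := fun p => shift (site s p) (box L)
  have hSm : ∀ p, MeasurableSet (S p) := fun p =>
    (measurableSet_box L).preimage (measurable_id.sub_const _)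
  have hd : ((Finset.univ : Finset (Fin 3 → Fin k)) : Set (Fin 3 → Fin k)).PairwiseDisjoint S := by
    intro p _ q _ hpq
    exact Set.disjoint_left.2 (fun x hx hx' => by
      have := sites_dist (s := s) le_rfl hL hpq hx hx'
      simp at this; linarith)
  set g : (Fin 3 → Fin k) → Multiset E3 → ℝ≥0∞ := fun _ => wt (ptl κ τ) ν
  have hU := gint_biUnion (Finset.univ : Finset (Fin 3 → Fin k)) (S := S) (fun p _ => hSm p) hd
    (f := g) (fun p _ => measG_wt (measurable_ptl hτ κ) ν)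
  have hterm : ∀ p, gint (S p) (g p) = ENNReal.ofReal (Real.exp (logXi κ τ ν L)) := by
    intro p
    rw [← Xi_le_exp_logXi hκ hτ]
    exact gint_shift _ (wt_map_sub _ _ _)
  simp only [hterm, Finset.prod_const, Finset.card_univ, Fintype.card_fun, Fintype.card_fin] at hU
  rw [← ENNReal.ofReal_pow (Real.exp_pos _).le, ← Real.exp_nat_mul] at hU
  push_cast at hU
  rw [← hU]
  refine le_trans (gint_mono (Finset.measurableSet_biUnion _ fun p _ => hSm p) ?_)
    (gint_mono_set (Set.iUnion₂_subset fun p _ => sites_subset hL (by linarith) p) _)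
  intro N x _ hxS
  have hx' : ∀ i, ∃ p, x i ∈ S p := fun i => by simpa using hxS i
  choose f hf using hx'
  have huniq : ∀ i p, x i ∈ S p → p = f i := by
    intro i p hp
    by_contra hne
    exact Set.disjoint_left.1 (hd (Finset.mem_univ p) (Finset.mem_univ (f i)) hne) hp (hf i)
  have hfilt : ∀ p, Finset.univ.filter (fun i => x i ∈ S p)
      = Finset.univ.filter (fun i => f i = p) := by
    intro p; ext i
    simp only [Finset.mem_filter, Finset.mem_univ, true_and]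
    exact ⟨fun h => (huniq i p h).symm, fun h => h ▸ hf i⟩
  simp only [g, wt, ← ENNReal.ofReal_prod_of_nonneg (fun p _ => (Real.exp_pos _).le),
    ← Real.exp_sum]
  refine ENNReal.ofReal_le_ofReal (Real.exp_le_exp.2 ?_)
  rw [Finset.sum_neg_distrib, neg_le_neg_iff, en_conf]
  simp only [en_conf_filter, hfilt, Finset.sum_sub_distrib, ← Finset.sum_div, ← Finset.mul_sum,
    Fintype.card_fin]
  have h1 : ∑ p : Fin 3 → Fin k, ((Finset.univ.filter (fun i => f i = p)).card : ℝ) = N := by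
    rw [← Nat.cast_sum, ← Finset.card_eq_sum_card_fiberwise (fun i _ => Finset.mem_univ _)]
    simp
  have h2 : ∑ p : Fin 3 → Fin k, ∑ i ∈ Finset.univ.filter (fun i => f i = p),
      ∑ j ∈ Finset.univ.filter (fun j => f j = p), ptl κ τ (dist (x i) (x j))
      = ∑ i, ∑ j, if f i = f j then ptl κ τ (dist (x i) (x j)) else 0 := by
    rw [← Finset.sum_fiberwise (Finset.univ) f
      (fun i => ∑ j, if f i = f j then ptl κ τ (dist (x i) (x j)) else 0)]
    refine Finset.sum_congr rfl (fun p _ => Finset.sum_congr rfl (fun i hi => ?_))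
    simp only [Finset.mem_filter] at hi
    rw [Finset.sum_filter]
    exact Finset.sum_congr rfl (fun j _ => by simp [hi.2, eq_comm])
  rw [h1, h2]
  gcongr with i _ j _
  split_ifs with h
  · exact le_rfl
  · exact ptl_nonpos hτ κ (sites_dist le_rfl hL h (hf i) (hf j))

/-- The pressure. -/
noncomputable def press (τ : ℕ → ℝ) (ν : ℝ) : ℝ :=
  ⨆ l : ℕ, logXi 1 τ ν l / ((l : ℝ) + 1) ^ 3

lemma press_bdd {τ : ℕ → ℝ} (hτ : Adm τ) (ν : ℝ) :
    BddAbove (Set.range fun l : ℕ => logXi 1 τ ν l / ((l : ℝ) + 1) ^ 3) := by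
  obtain ⟨C, hC, hb⟩ := exists_logXi_bound one_pos (tot τ) ν
  refine ⟨C, ?_⟩
  rintro _ ⟨l, rfl⟩
  simp only
  rw [div_le_iff₀ (by positivity)]
  refine (hb τ hτ le_rfl ν le_rfl l (Nat.cast_nonneg _)).trans ?_
  gcongr; linarith

lemma logXi_le_press {τ : ℕ → ℝ} (hτ : Adm τ) (ν : ℝ) (l : ℕ) :
    logXi 1 τ ν l ≤ ((l : ℝ) + 1) ^ 3 * press τ ν := by
  have := le_ciSup (press_bdd hτ ν) l
  rw [div_le_iff₀ (by positivity)] at this
  rw [mul_comm]; exact this

lemma press_nonneg {τ : ℕ → ℝ} (hτ : Adm τ) (ν : ℝ) : 0 ≤ press τ ν := by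
  refine le_trans ?_ (le_ciSup (press_bdd hτ ν) 0)
  have := logXi_nonneg one_pos hτ ν (0 : ℕ)
  simpa using this

lemma press_le {τ : ℕ → ℝ} (ν : ℝ) {C : ℝ}
    (h : ∀ l : ℕ, logXi 1 τ ν l ≤ C * ((l : ℝ) + 1) ^ 3) : press τ ν ≤ C :=
  ciSup_le (fun l => by rw [div_le_iff₀ (by positivity)]; exact h l)

/-- The thermodynamic limit exists. -/
lemma tendsto_press {τ : ℕ → ℝ} (hτ : Adm τ) (ν : ℝ) :
    Tendsto (fun L : ℝ => logXi 1 τ ν L / L ^ 3) atTop (𝓝 (press τ ν)) := by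
  rw [tendsto_order]
  constructor
  · intro b hb
    obtain ⟨l, hl⟩ := exists_lt_of_lt_ciSup hb
    set c := logXi 1 τ ν l / ((l : ℝ) + 1) ^ 3
    have hk : Tendsto (fun L : ℝ => c * ((⌊L / ((l : ℝ) + 1)⌋₊ : ℝ) / (L / ((l : ℝ) + 1))) ^ 3)
        atTop (𝓝 c) := by
      have h1 : Tendsto (fun L : ℝ => (⌊L / ((l : ℝ) + 1)⌋₊ : ℝ) / (L / ((l : ℝ) + 1)))
          atTop (𝓝 1) :=
        (tendsto_nat_floor_div_atTop (R := ℝ)).comp
          (tendsto_id.atTop_div_const (by positivity))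
      simpa using (h1.pow 3).const_mul c
    filter_upwards [hk.eventually_const_lt hl, eventually_gt_atTop (0 : ℝ)] with L hL hL0
    refine lt_of_lt_of_le hL ?_
    set k := ⌊L / ((l : ℝ) + 1)⌋₊
    have h2 := logXi_superadd one_pos hτ ν (Nat.cast_nonneg l) k
    have h3 : ((l : ℝ) + 1) * k ≤ L := by
      have := Nat.floor_le (show 0 ≤ L / ((l : ℝ) + 1) by positivity)
      rw [le_div_iff₀ (by positivity)] at this
      linarith
    have h4 := h2.trans (logXi_mono one_pos hτ ν h3)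
    calc c * ((k : ℝ) / (L / ((l : ℝ) + 1))) ^ 3 = (k : ℝ) ^ 3 * logXi 1 τ ν l / L ^ 3 := by
          simp only [c]; field_simp
      _ ≤ _ := by gcongr
  · intro b hb
    have hk : Tendsto (fun L : ℝ => press τ ν * ((L + 2) / L) ^ 3) atTop (𝓝 (press τ ν)) := by
      have h1 : Tendsto (fun L : ℝ => (L + 2) / L) atTop (𝓝 1) := by
        have : Tendsto (fun L : ℝ => 1 + 2 / L) atTop (𝓝 1) := by
          simpa using (tendsto_const_nhds (x := (2 : ℝ))).div_atTop tendsto_id |>.const_add 1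
        refine this.congr' ?_
        filter_upwards [eventually_ne_atTop (0 : ℝ)] with L hL
        field_simp
      simpa using (h1.pow 3).const_mul (press τ ν)
    filter_upwards [hk.eventually_lt_const hb, eventually_gt_atTop (0 : ℝ)] with L hL hL0
    refine lt_of_le_of_lt ?_ hL
    have h1 := (logXi_mono one_pos hτ ν (Nat.le_ceil L)).trans (logXi_le_press hτ ν ⌈L⌉₊)
    have h2 := Nat.ceil_lt_add_one hL0.le
    have h3 := press_nonneg hτ ν
    rw [div_pow, mul_div_assoc']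
    gcongr
    refine h1.trans ?_
    rw [mul_comm]
    exact mul_le_mul_of_nonneg_left (pow_le_pow_left₀ (by positivity) (by linarith) 3) h3

end Vale.Agent.P171
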