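import Vale.Agent.P171.Bounds

/-!
Block decoupling: an upper bound for the pressure after adding attraction at a large scale.
-/

namespace Vale.Agent.P171

open MeasureTheory Set Filter Metric
open scoped ENNReal Topology

variable {N : ℕ}

lemma sum_ediv_add (l : ℕ) (hl : 0 < l) (a : ℤ) :
    ∑ j ∈ Finset.range l, (a + j) / (l : ℤ) = a := by
  have hstep : ∀ a : ℤ, ∑ j ∈ Finset.range l, (a + 1 + j) / (l : ℤ)
      = (∑ j ∈ Finset.range l, (a + j) / (l : ℤ)) + 1 := by
    intro a
    have h1 := Finset.sum_range_succ' (fun j : ℕ => (a + j) / (l : ℤ)) l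
    have h2 := Finset.sum_range_succ (fun j : ℕ => (a + j) / (l : ℤ)) l
    rw [h1] at h2
    simp only [Nat.cast_zero, add_zero, Nat.cast_add, Nat.cast_one] at h2
    have h3 : (a + (l : ℤ)) / (l : ℤ) = a / (l : ℤ) + 1 :=
      Int.add_ediv_of_dvd_right (dvd_refl _) |>.trans (by rw [Int.ediv_self (by omega)])
    rw [h3] at h2
    have h4 : ∀ j : ℕ, (a + 1 + (j : ℤ)) / (l : ℤ) = (a + ((j : ℤ) + 1)) / (l : ℤ) :=
      fun j => by ring_nf
    simp only [h4]
    linarith
  induction a using Int.induction_on with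
  | zero =>
    refine Finset.sum_eq_zero (fun j hj => ?_)
    rw [zero_add]
    exact Int.ediv_eq_zero_of_lt (by positivity) (by simp at hj; omega)
  | succ n ih => rw [hstep, ih]
  | pred n ih =>
    have := hstep (-(n : ℤ) - 1)
    rw [sub_add_cancel, ih] at this
    linarith

lemma card_sep_one (l : ℕ) (hl : 0 < l) (a b : ℤ) :
    ((Finset.univ.filter (fun j : Fin l => (a + (j : ℕ)) / (l : ℤ) ≠ (b + (j : ℕ)) / (l : ℤ))).card
      : ℤ) ≤ |a - b| := by
  wlog hab : a ≤ b generalizing a b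
  · rw [abs_sub_comm]
    refine le_trans (le_of_eq ?_) (this b a (le_of_not_ge hab))
    simp only [ne_comm]
  rw [abs_sub_comm, abs_of_nonneg (by linarith)]
  have h : ∀ j : Fin l, (if (a + (j : ℕ)) / (l : ℤ) ≠ (b + (j : ℕ)) / (l : ℤ) then (1 : ℤ) else 0)
      ≤ (b + (j : ℕ)) / (l : ℤ) - (a + (j : ℕ)) / (l : ℤ) := by
    intro j
    have := Int.ediv_le_ediv (by omega : (0 : ℤ) < l) (by omega : a + (j : ℕ) ≤ b + (j : ℕ))
    split_ifs <;> omega
  rw [← Finset.sum_boole]
  refine (Finset.sum_le_sum (fun j _ => h j)).trans (le_of_eq ?_)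
  rw [Finset.sum_sub_distrib, Fin.sum_univ_eq_sum_range (fun j => (b + (j : ℕ)) / (l : ℤ)),
    Fin.sum_univ_eq_sum_range (fun j => (a + (j : ℕ)) / (l : ℤ)), sum_ediv_add l hl,
    sum_ediv_add l hl]

/-- Block of side `l` with shift `j` containing a point. -/
noncomputable def blk (l : ℕ) (j : Fin 3 → Fin l) (x : E3) : Fin 3 → ℤ :=
  fun c => (cell x c + ((j c : ℕ) : ℤ)) / (l : ℤ)

lemma blk_eq_grid (l : ℕ) (j : Fin 3 → Fin l) :
    blk l j = grid (l : ℝ) (fun c => ((j c : ℕ) : ℝ)) := by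
  funext x c
  simp only [blk, grid, cell]
  rw [Int.floor_div_natCast, Int.floor_add_natCast]

lemma card_sep {l : ℕ} (hl : 0 < l) (x y : E3) :
    ((Finset.univ.filter (fun j : Fin 3 → Fin l => blk l j x ≠ blk l j y)).card : ℝ)
      ≤ (l : ℝ) ^ 2 * (3 * (dist x y + 1)) := by
  classical
  set F : Fin 3 → Finset (Fin 3 → Fin l) := fun c =>
    Fintype.piFinset (fun c' => if c' = c then
      Finset.univ.filter (fun j : Fin l =>
        (cell x c + (j : ℕ)) / (l : ℤ) ≠ (cell y c + (j : ℕ)) / (l : ℤ))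
      else Finset.univ)
  have hsub : Finset.univ.filter (fun j : Fin 3 → Fin l => blk l j x ≠ blk l j y)
      ⊆ Finset.univ.biUnion F := by
    intro j hj
    obtain ⟨c, hc⟩ := Function.ne_iff.1 (Finset.mem_filter.1 hj).2
    refine Finset.mem_biUnion.2 ⟨c, Finset.mem_univ _, Fintype.mem_piFinset.2 (fun c' => ?_)⟩
    by_cases h : c' = c
    · subst h; simpa [blk] using hc
    · simp [h]
  have hF : ∀ c, ((F c).card : ℝ) ≤ (l : ℝ) ^ 2 * (dist x y + 1) := by
    intro c
    simp only [F, Fintype.card_piFinset]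
    rw [← Finset.mul_prod_erase _ _ (Finset.mem_univ c), if_pos rfl,
      Finset.prod_congr rfl (fun c' hc' => by rw [if_neg (Finset.mem_erase.1 hc').1])]
    simp only [Finset.card_univ, Fintype.card_fin, Finset.prod_const,
      Finset.card_erase_of_mem (Finset.mem_univ c)]
    push_cast
    rw [mul_comm]
    refine mul_le_mul_of_nonneg_left ?_ (by positivity)
    refine le_trans (b := |((cell x c : ℝ)) - (cell y c : ℝ)|) ?_ ?_
    · exact_mod_cast card_sep_one l hl (cell x c) (cell y c)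
    · have h1 := Int.floor_le (x c)
      have h2 := Int.lt_floor_add_one (x c)
      have h3 := Int.floor_le (y c)
      have h4 := Int.lt_floor_add_one (y c)
      have h5 := abs_le.1 (abs_sub_le_dist x y c)
      simp only [cell]
      rw [abs_le]
      constructor <;> linarith [h5.1, h5.2]
  refine (Nat.cast_le.2 ((Finset.card_le_card hsub).trans Finset.card_biUnion_le)).trans ?_
  push_cast
  refine (Finset.sum_le_sum (fun c _ => hF c)).trans (le_of_eq ?_)
  simp; ring

/-- Weights above a cut-off. -/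
def high (τ : ℕ → ℝ) (m : ℕ) (i : ℕ) : ℝ := if m < i then τ i else 0

lemma adm_high {τ : ℕ → ℝ} (h : Adm τ) (m : ℕ) : Adm (high τ m) := by
  refine ⟨fun i => ?_, Summable.of_nonneg_of_le (fun i => ?_) (fun i => ?_) h.2⟩ <;>
  · unfold high; split_ifs <;> simp [h.1 i]

lemma att_eq_high {τ : ℕ → ℝ} {m : ℕ} {r : ℝ} (hr : rad m ≤ r) : att τ r = att (high τ m) r := by
  refine tsum_congr (fun i => ?_)
  unfold high
  split_ifs with hi
  · rfl
  · rw [kern, if_neg]
    · simp
    · exact fun h => absurd h.2 (not_lt.2 ((rad_mono (le_of_not_gt hi)).trans hr))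

/-- Averaged over shifts, the attraction between blocks is small. -/
lemma sum_cross_le {τ : ℕ → ℝ} (hτ : Adm τ) {l : ℕ} (hl : 0 < l) (m : ℕ) (x : Fin N → E3) :
    ∑ j : Fin 3 → Fin l, (pairs x (att τ) - pairsIn (fun i => blk l j (x i)) x (att τ))
      ≤ (l : ℝ) ^ 3 * ((3 * (rad m + 1) / l) * (2 * tot τ) + 2 * tot (high τ m))
          * same (fun i => cell (x i)) := by
  classical
  have hh := adm_high hτ m
  have hpt : ∀ i i' : Fin N, ∑ j : Fin 3 → Fin l, (att τ (dist (x i) (x i'))
        - if blk l j (x i) = blk l j (x i') then att τ (dist (x i) (x i')) else 0)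
      ≤ (l : ℝ) ^ 2 * (3 * (rad m + 1)) * att τ (dist (x i) (x i'))
        + (l : ℝ) ^ 3 * att (high τ m) (dist (x i) (x i')) := by
    intro i i'
    set d := dist (x i) (x i')
    have hd := att_nonneg hτ d
    have hd' := att_nonneg hh d
    have heq : ∑ j : Fin 3 → Fin l,
        (att τ d - if blk l j (x i) = blk l j (x i') then att τ d else 0)
        = ((Finset.univ.filter (fun j : Fin 3 → Fin l => blk l j (x i) ≠ blk l j (x i'))).card : ℝ)
            * att τ d := by
      rw [← Finset.sum_boole, Finset.sum_mul]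
      exact Finset.sum_congr rfl (fun j _ => by split_ifs <;> simp_all)
    rw [heq]
    rcases lt_or_ge d (rad m) with h | h
    · refine le_add_of_le_of_nonneg (mul_le_mul_of_nonneg_right
        ((card_sep hl _ _).trans ?_) hd) (by positivity)
      gcongr
    · have h1 : ((Finset.univ.filter
          (fun j : Fin 3 → Fin l => blk l j (x i) ≠ blk l j (x i'))).card : ℝ) ≤ (l : ℝ) ^ 3 := by
        refine le_trans (Nat.cast_le.2 (Finset.card_filter_le _ _)) ?_
        simp
      rw [← att_eq_high h]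
      refine le_add_of_nonneg_of_le ?_ (mul_le_mul_of_nonneg_right h1 hd)
      have := rad_pos m
      positivity
  calc ∑ j : Fin 3 → Fin l, (pairs x (att τ) - pairsIn (fun i => blk l j (x i)) x (att τ))
      = ∑ i, ∑ i', ∑ j : Fin 3 → Fin l, (att τ (dist (x i) (x i'))
        - if blk l j (x i) = blk l j (x i') then att τ (dist (x i) (x i')) else 0) := by
        simp only [pairs, pairsIn, ← Finset.sum_sub_distrib]
        rw [Finset.sum_comm]
        exact Finset.sum_congr rfl (fun i _ => Finset.sum_comm)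
    _ ≤ ∑ i, ∑ i', ((l : ℝ) ^ 2 * (3 * (rad m + 1)) * att τ (dist (x i) (x i'))
        + (l : ℝ) ^ 3 * att (high τ m) (dist (x i) (x i'))) :=
        Finset.sum_le_sum fun i _ => Finset.sum_le_sum fun i' _ => hpt i i'
    _ = (l : ℝ) ^ 2 * (3 * (rad m + 1)) * pairs x (att τ)
        + (l : ℝ) ^ 3 * pairs x (att (high τ m)) := by
        simp only [pairs, Finset.sum_add_distrib, Finset.mul_sum]
    _ ≤ (l : ℝ) ^ 2 * (3 * (rad m + 1)) * (2 * tot τ * same (fun i => cell (x i)))
        + (l : ℝ) ^ 3 * (2 * tot (high τ m) * same (fun i => cell (x i))) := by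
        have := rad_pos m
        gcongr
        · exact pairs_att_le hτ x
        · exact pairs_att_le hh x
    _ = _ := by
        have : (l : ℝ) ≠ 0 := by positivity
        field_simp

/-- Adding weight `s` at scale `k`. -/
noncomputable def bump (τ : ℕ → ℝ) (k : ℕ) (s : ℝ) (i : ℕ) : ℝ :=
  τ i + (if i = k then s else 0)

lemma adm_bump {τ : ℕ → ℝ} (h : Adm τ) (k : ℕ) {s : ℝ} (hs : 0 ≤ s) : Adm (bump τ k s) := by
  refine ⟨fun i => add_nonneg (h.1 i) (by split_ifs <;> linarith), h.2.add ?_⟩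
  exact (hasSum_ite_eq k s).summable

lemma att_bump {τ : ℕ → ℝ} (h : Adm τ) (k : ℕ) (s r : ℝ) :
    att (bump τ k s) r = att τ r + s * kern (rad k) r := by
  have h2 : HasSum (fun i => (if i = k then s else 0) * kern (rad i) r) (s * kern (rad k) r) := by
    have : (fun i => (if i = k then s else 0) * kern (rad i) r)
        = fun i => if i = k then s * kern (rad k) r else 0 := by
      funext i
      split_ifs with hi
      · rw [hi]
      · simp
    rw [this]
    exact hasSum_ite_eq k _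
  have h3 := (summable_att h r).hasSum.add h2
  simp only [← add_mul] at h3
  exact h3.tsum_eq

lemma sum_filter_filter_eq_pairsIn {κ : Type} [DecidableEq κ] (S : Finset κ) (f : Fin N → κ)
    (hf : ∀ i, f i ∈ S) (x : Fin N → E3) (p : ℝ → ℝ) :
    ∑ b ∈ S, ∑ i ∈ Finset.univ.filter (fun i => f i = b),
      ∑ j ∈ Finset.univ.filter (fun j => f j = b), p (dist (x i) (x j)) = pairsIn f x p := by
  unfold pairsIn
  rw [← Finset.sum_fiberwise_of_maps_to (fun i _ => hf i)
    (fun i => ∑ j, if f i = f j then p (dist (x i) (x j)) else 0)]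
  refine Finset.sum_congr rfl (fun b _ => Finset.sum_congr rfl (fun i hi => ?_))
  simp only [Finset.mem_filter] at hi
  rw [Finset.sum_filter]
  exact Finset.sum_congr rfl (fun j _ => by simp [hi.2, eq_comm])

lemma sum_card_sq_eq_same {κ : Type} [DecidableEq κ] (S : Finset κ) (f : Fin N → κ)
    (hf : ∀ i, f i ∈ S) :
    ∑ b ∈ S, ((Finset.univ.filter (fun i => f i = b)).card : ℝ) ^ 2 = same f := by
  rw [same_eq_sum_sq]
  symm
  refine Finset.sum_subset (fun b hb => ?_) (fun b _ hb => ?_)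
  · obtain ⟨i, -, rfl⟩ := Finset.mem_image.1 hb; exact hf i
  · rw [Finset.filter_eq_empty_iff.2 (fun i _ h => hb (Finset.mem_image.2 ⟨i, Finset.mem_univ i, h⟩))]
    simp

lemma sum_card_eq {κ : Type} [DecidableEq κ] (S : Finset κ) (f : Fin N → κ) (hf : ∀ i, f i ∈ S) :
    ∑ b ∈ S, ((Finset.univ.filter (fun i => f i = b)).card : ℝ) = N := by
  rw [← Nat.cast_sum, ← Finset.card_eq_sum_card_fiberwise (fun i _ => hf i)]
  simp

/-- The block functional. -/
noncomputable def bfun (τ : ℕ → ℝ) (θ ν c : ℝ) (m : Multiset E3) : ℝ≥0∞ :=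
  ENNReal.ofReal (Real.exp (c * (Multiset.card m : ℝ) ^ 2 / 2)) * wt (ptl (1 - θ / 2) τ) ν m

lemma measG_bfun {τ : ℕ → ℝ} (hτ : Adm τ) (θ ν c : ℝ) : MeasG (bfun τ θ ν c) := by
  intro N
  simp only [bfun, conf_card]
  exact (measG_wt (measurable_ptl hτ _) ν N).const_mul _

open Classical in
/-- Bound for one block. -/
lemma gint_block_le {τ : ℕ → ℝ} (hτ : Adm τ) {μ θ s q g A P₀ r C₀ Ch : ℝ} {l : ℕ} (hl : 0 < l)
    (hθ : 0 < θ) (hθ1 : θ < 1) (hs : 0 < s) (hq : 0 < q) (hg : 0 < g) (hA : 0 < A)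
    (hr : 0 ≤ r) (hP : 0 ≤ P₀)
    (hA' : A ≤ 1 / (2 * (s * q)) - (((l : ℝ) + 1) / l) ^ 3 * C₀ / (1 - θ))
    (hgrow : ∀ a, 0 ≤ a → press τ (μ + a) ≤ P₀ + r * a + C₀ * a ^ 2) (hCh : 0 ≤ Ch)
    (hhalf : logXi (1 / 2) τ (μ + 1) l ≤ Ch * (l : ℝ) ^ 3) :
    gint (box l) (bfun τ θ (μ + θ) (s * q / (l : ℝ) ^ 3)) ≤
      ENNReal.ofReal (Real.exp ((l : ℝ) ^ 3 * ((((l : ℝ) + 1) / l) ^ 3 * (P₀ + θ * Ch)
        + ((((l : ℝ) + 1) / l) ^ 3 * r) ^ 2 / (4 * (1 - θ) * A) + g ^ 2 / (2 * (s * q)))
        - Real.log (1 - Real.exp (-(θ * A * g ^ 2))))) := by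
  set c := s * q / (l : ℝ) ^ 3 with hc
  set Q := (((l : ℝ) + 1) / l) ^ 3 with hQ
  have hl0 : (1 : ℝ) ≤ l := by exact_mod_cast hl
  have hl3 : (0 : ℝ) < (l : ℝ) ^ 3 := by positivity
  have hc0 : 0 < c := by positivity
  have hθ' : 0 < 1 - θ := by linarith
  have hQ1 : 1 ≤ Q := one_le_pow₀ (by rw [one_le_div (by linarith)]; linarith)
  have hQ0 : 0 ≤ Q := by linarith
  have hρlt : Real.exp (-(θ * A * g ^ 2)) < 1 :=
    Real.exp_lt_one_iff.2 (by have : 0 < θ * A * g ^ 2 := by positivity
                              linarith)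
  set ρ := Real.exp (-(θ * A * g ^ 2)) with hρ
  have hκ : (0 : ℝ) < 1 - θ / 2 := by linarith
  set E := fun i : ℕ => ENNReal.ofReal (Real.exp (g ^ 2 / (2 * c) - ((i : ℝ) * g) ^ 2 / (2 * c)))
  -- linearisation of the square
  have hlin : ∀ (N : ℕ) (x : Fin N → E3), Function.Injective x → (∀ i, x i ∈ box l) →
      bfun τ θ (μ + θ) c (conf x) ≤
        ∑' i : ℕ, E i * wt (ptl (1 - θ / 2) τ) (μ + θ + i * g) (conf x) := by
    intro N x _ _
    set i0 := ⌊c * N / g⌋₊
    refine le_trans ?_ (ENNReal.le_tsum i0)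
    simp only [bfun, E, wt, conf_card, Fintype.card_fin]
    rw [← ENNReal.ofReal_mul (Real.exp_pos _).le, ← ENNReal.ofReal_mul (Real.exp_pos _).le,
      ← Real.exp_add, ← Real.exp_add]
    refine ENNReal.ofReal_le_ofReal (Real.exp_le_exp.2 ?_)
    have h1 := Nat.floor_le (show 0 ≤ c * N / g by positivity)
    have h2 := Nat.lt_floor_add_one (c * N / g)
    rw [le_div_iff₀ hg] at h1
    rw [div_lt_iff₀ hg] at h2
    have hd : 0 ≤ (g ^ 2 - (c * N - (i0 : ℝ) * g) ^ 2) / (2 * c) := by
      refine div_nonneg ?_ (by positivity)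
      have a1 : 0 ≤ c * N - (i0 : ℝ) * g := by linarith
      have a2 : c * N - (i0 : ℝ) * g ≤ g := by linarith
      nlinarith
    simp only [en_conf_ptl]
    have key : g ^ 2 / (2 * c) - ((i0 : ℝ) * g) ^ 2 / (2 * c) + (i0 : ℝ) * g * N
        - c * (N : ℝ) ^ 2 / 2 = (g ^ 2 - (c * N - (i0 : ℝ) * g) ^ 2) / (2 * c) := by
      field_simp; ring
    linarith
  refine (gint_mono (measurableSet_box _) (g' := fun m =>
    ∑' i : ℕ, E i * wt (ptl (1 - θ / 2) τ) (μ + θ + i * g) m) hlin).trans ?_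
  have hsplit : gint (box l) (fun m => ∑' i : ℕ, E i * wt (ptl (1 - θ / 2) τ) (μ + θ + i * g) m)
      = ∑' i : ℕ, E i * Xi (1 - θ / 2) τ (μ + θ + i * g) (box l) := by
    unfold Xi
    simp only [← gint_const_mul _ ENNReal.ofReal_ne_top, E]
    unfold gint cint
    rw [ENNReal.tsum_comm]
    refine tsum_congr (fun n => ?_)
    rw [ENNReal.tsum_mul_left]
    congr 1
    exact lintegral_tsum (fun i =>
      ((measG_wt (measurable_ptl hτ _) _ n).const_mul _).aemeasurable)
  rw [hsplit]
  set Br := Q * (P₀ + θ * Ch) + (Q * r) ^ 2 / (4 * (1 - θ) * A) + g ^ 2 / (2 * (s * q))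
  have hterm : ∀ i : ℕ, E i * Xi (1 - θ / 2) τ (μ + θ + i * g) (box l)
      ≤ ENNReal.ofReal (Real.exp ((l : ℝ) ^ 3 * Br) * ρ ^ i) := by
    intro i
    set a := (i : ℝ) * g
    have ha : 0 ≤ a := by positivity
    simp only [E]
    rw [Xi_le_exp_logXi hκ hτ, ← ENNReal.ofReal_mul (Real.exp_pos _).le, ← Real.exp_add,
      hρ, ← Real.exp_nat_mul, ← Real.exp_add]
    refine ENNReal.ofReal_le_ofReal (Real.exp_le_exp.2 ?_)
    have h1 : logXi (1 - θ / 2) τ (μ + θ + a) l
        ≤ (1 - θ) * logXi 1 τ (μ + a / (1 - θ)) l + θ * logXi (1 / 2) τ (μ + 1) l := by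
      refine logXi_mix hκ one_pos (by norm_num) hτ hτ hτ hθ.le hθ1.le _ (fun N x _ => le_of_eq ?_)
      simp only [en_conf_ptl]
      field_simp
      ring
    have h2 := (logXi_le_press hτ (μ + a / (1 - θ)) l).trans
      (mul_le_mul_of_nonneg_left (hgrow (a / (1 - θ)) (div_nonneg ha hθ'.le))
        (by positivity : (0 : ℝ) ≤ ((l : ℝ) + 1) ^ 3))
    have hl1 : ((l : ℝ) + 1) ^ 3 = (l : ℝ) ^ 3 * Q := by rw [hQ, div_pow]; field_simp
    rw [hl1] at h2
    have h3 : (1 - θ) * logXi 1 τ (μ + a / (1 - θ)) l + θ * logXi (1 / 2) τ (μ + 1) l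
        ≤ (l : ℝ) ^ 3 * (Q * ((1 - θ) * P₀ + r * a + C₀ * a ^ 2 / (1 - θ)) + θ * Ch) := by
      refine (add_le_add (mul_le_mul_of_nonneg_left h2 hθ'.le)
        (mul_le_mul_of_nonneg_left hhalf hθ.le)).trans (le_of_eq ?_)
      field_simp
    have hA2 : A * a ^ 2 ≤ (1 / (2 * (s * q)) - Q * C₀ / (1 - θ)) * a ^ 2 :=
      mul_le_mul_of_nonneg_right hA' (sq_nonneg a)
    have hsq : Q * r * a - (1 - θ) * A * a ^ 2 ≤ (Q * r) ^ 2 / (4 * (1 - θ) * A) := by
      rw [le_div_iff₀ (by positivity)]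
      nlinarith [sq_nonneg (Q * r - 2 * (1 - θ) * A * a)]
    have hi : θ * A * g ^ 2 * (i : ℝ) ≤ θ * A * a ^ 2 * (l : ℝ) ^ 3 := by
      have hii : (i : ℝ) ≤ (i : ℝ) ^ 2 := by
        exact_mod_cast Nat.le_self_pow two_ne_zero i
      calc θ * A * g ^ 2 * (i : ℝ) ≤ θ * A * g ^ 2 * (i : ℝ) ^ 2 := by gcongr
        _ = θ * A * a ^ 2 * 1 := by simp only [a]; ring
        _ ≤ _ := by gcongr; exact one_le_pow₀ hl0
    have e1 : g ^ 2 / (2 * c) = (l : ℝ) ^ 3 * (g ^ 2 / (2 * (s * q))) := by rw [hc]; field_simp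
    have e2 : a ^ 2 / (2 * c) = (l : ℝ) ^ 3 * (a ^ 2 * (1 / (2 * (s * q)))) := by
      rw [hc]; field_simp
    rw [e1, e2]
    have h5 : Q * ((1 - θ) * P₀ + r * a + C₀ * a ^ 2 / (1 - θ)) + θ * Ch
        - a ^ 2 * (1 / (2 * (s * q))) + θ * A * a ^ 2
        ≤ Q * (P₀ + θ * Ch) + (Q * r) ^ 2 / (4 * (1 - θ) * A) := by
      have : θ * Ch ≤ Q * (θ * Ch) := le_mul_of_one_le_left (by positivity) hQ1
      have : 0 ≤ Q * (θ * P₀) := by positivity
      have e3 : Q * (C₀ * a ^ 2 / (1 - θ)) = Q * C₀ / (1 - θ) * a ^ 2 := by ring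
      linarith
    have h6 := mul_le_mul_of_nonneg_left h5 hl3.le
    simp only [Br]
    linarith
  refine (ENNReal.tsum_le_tsum hterm).trans (le_of_eq ?_)
  have hsum := (hasSum_geometric_of_lt_one (Real.exp_pos _).le hρlt).mul_left
    (Real.exp ((l : ℝ) ^ 3 * Br))
  rw [← ENNReal.ofReal_tsum_of_nonneg (fun i => by positivity) hsum.summable, hsum.tsum_eq,
    Real.exp_sub, Real.exp_log (by linarith), div_eq_mul_inv]

open Classical in
/-- The main upper bound. -/
lemma press_bump_le {τ : ℕ → ℝ} (hτ : Adm τ) {μ θ s g A P₀ r C₀ Ch : ℝ} {l m k : ℕ} (hl : 0 < l)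
    (hθ : 0 < θ) (hθ1 : θ < 1) (hs : 0 < s) (hg : 0 < g) (hA : 0 < A) (hr : 0 ≤ r) (hP : 0 ≤ P₀)
    (hcross : (3 * (rad m + 1) / l) * (2 * tot τ) + 2 * tot (high τ m) ≤ θ / 20)
    (hA' : A ≤ 1 / (2 * (s * ((rad k + 4 * l) / rad k) ^ 3))
      - (((l : ℝ) + 1) / l) ^ 3 * C₀ / (1 - θ))
    (hgrow : ∀ a, 0 ≤ a → press τ (μ + a) ≤ P₀ + r * a + C₀ * a ^ 2) (hCh : 0 ≤ Ch)
    (hhalf : logXi (1 / 2) τ (μ + 1) l ≤ Ch * (l : ℝ) ^ 3) :
    press (bump τ k s) μ ≤ (((l : ℝ) + 1) / l) ^ 3 * (P₀ + θ * Ch)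
      + ((((l : ℝ) + 1) / l) ^ 3 * r) ^ 2 / (4 * (1 - θ) * A)
      + g ^ 2 / (2 * (s * ((rad k + 4 * l) / rad k) ^ 3))
      - Real.log (1 - Real.exp (-(θ * A * g ^ 2))) / (l : ℝ) ^ 3 := by
  set q := ((rad k + 4 * l) / rad k) ^ 3 with hq
  have hR := rad_pos k
  have hq0 : 0 < q := by positivity
  have hl' : (0 : ℝ) < l := by exact_mod_cast hl
  have hl3 : (0 : ℝ) < (l : ℝ) ^ 3 := by positivity
  set c := s * q / (l : ℝ) ^ 3 with hc
  set Br := (((l : ℝ) + 1) / l) ^ 3 * (P₀ + θ * Ch)
    + ((((l : ℝ) + 1) / l) ^ 3 * r) ^ 2 / (4 * (1 - θ) * A) + g ^ 2 / (2 * (s * q))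
  set Z := (l : ℝ) ^ 3 * Br - Real.log (1 - Real.exp (-(θ * A * g ^ 2))) with hZ
  have hblock : gint (box l) (bfun τ θ (μ + θ) c) ≤ ENNReal.ofReal (Real.exp Z) :=
    gint_block_le hτ hl hθ hθ1 hs hq0 hg hA hr hP hA' hgrow hCh hhalf
  have hτ' := adm_bump hτ k hs.le
  have hκ : (0 : ℝ) < 1 - θ / 2 := by linarith
  have hZ0 : 0 ≤ Z := by
    have h1 : (1 : ℝ≥0∞) ≤ gint (box l) (bfun τ θ (μ + θ) c) := by
      refine le_trans (le_of_eq ?_) (le_gint _ _)
      simp [bfun, wt, en]
    have := h1.trans hblock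
    rwa [ENNReal.one_le_ofReal, Real.one_le_exp_iff] at this
  have hmain : ∀ L : ℝ, 0 ≤ L →
      logXi 1 (bump τ k s) μ L ≤ Real.log ((l : ℝ) ^ 3) + (L / l + 3) ^ 3 * Z := by
    intro L hL
    refine logXi_le_of one_pos hτ' ?_
    set n := ⌊L / l⌋₊ + 1
    set B : Finset (Fin 3 → ℤ) := Fintype.piFinset (fun _ => Finset.Icc (0 : ℤ) n)
    set G : (Fin 3 → Fin l) → Multiset E3 → ℝ≥0∞ := fun j mm =>
      ∏ b ∈ B, bfun τ θ (μ + θ) c
        (mm.filter (· ∈ gridCube (l : ℝ) (fun d => ((j d : ℕ) : ℝ)) b))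
    have hmem : ∀ (j : Fin 3 → Fin l) (y : E3), y ∈ box L → blk l j y ∈ B := by
      intro j y hy
      rw [Fintype.mem_piFinset]
      intro d
      rw [blk_eq_grid, Finset.mem_Icc]
      simp only [grid]
      refine ⟨Int.floor_nonneg.2 (div_nonneg (add_nonneg (hy d).1 (Nat.cast_nonneg _)) hl'.le),
        ?_⟩
      rw [Int.floor_le_iff, div_lt_iff₀ hl']
      have h1 := Nat.lt_floor_add_one (L / l)
      rw [div_lt_iff₀ hl'] at h1
      have h2 : ((j d : ℕ) : ℝ) + 1 ≤ l := by exact_mod_cast (j d).2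
      simp only [n]
      push_cast
      linarith [(hy d).2]
    have hpt : ∀ (N : ℕ) (x : Fin N → E3), Function.Injective x → (∀ i, x i ∈ box L) →
        wt (ptl 1 (bump τ k s)) μ (conf x) ≤ ∑ j : Fin 3 → Fin l, G j (conf x) := by
      intro N x hx hxL
      set U := en (ptl 1 (bump τ k s)) μ (conf x) with hU
      set W : (Fin 3 → Fin l) → ℝ := fun j =>
        ((1 - θ / 2) * pairsIn (fun i => blk l j (x i)) x core
          - pairsIn (fun i => blk l j (x i)) x (att τ)
          - c * same (fun i => blk l j (x i))) / 2 - (μ + θ) * N with hW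
      have hG : ∀ j, G j (conf x) = ENNReal.ofReal (Real.exp (-W j)) := by
        intro j
        set f := fun i => blk l j (x i)
        have hf : ∀ i, f i ∈ B := fun i => hmem j _ (hxL i)
        have hfilt : ∀ b, Finset.univ.filter
            (fun i => x i ∈ gridCube (l : ℝ) (fun d => ((j d : ℕ) : ℝ)) b)
            = Finset.univ.filter (fun i => f i = b) := by
          intro b; ext i
          simp [f, mem_gridCube hl', blk_eq_grid]
        have hcardf : ∀ b, (Multiset.card ((conf x).filter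
            (· ∈ gridCube (l : ℝ) (fun d => ((j d : ℕ) : ℝ)) b)) : ℝ)
            = ((Finset.univ.filter (fun i => f i = b)).card : ℝ) := by
          intro b
          rw [conf_filter, Multiset.card_map, ← hfilt b]
          rfl
        simp only [G, bfun, wt, hcardf, en_conf_filter, hfilt,
          ← ENNReal.ofReal_mul (Real.exp_pos _).le, ← Real.exp_add]
        rw [← ENNReal.ofReal_prod_of_nonneg (fun b _ => (Real.exp_pos _).le), ← Real.exp_sum]
        congr 2
        simp only [hW, ptl, Finset.sum_sub_distrib,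
          ← Finset.mul_sum, Finset.sum_add_distrib, Finset.sum_neg_distrib, ← Finset.sum_div]
        rw [sum_filter_filter_eq_pairsIn B f hf x core,
          sum_filter_filter_eq_pairsIn B f hf x (att τ), sum_card_sq_eq_same B f hf,
          sum_card_eq B f hf]
        ring
      have hsum : ∑ j, W j ≤ ∑ _j : Fin 3 → Fin l, U := by
        have hcardj : ((Finset.univ : Finset (Fin 3 → Fin l)).card : ℝ) = (l : ℝ) ^ 3 := by simp
        have hUe : U = (pairs x core - pairs x (att τ) - s * pairs x (kern (rad k))) / 2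
            - μ * N := by
          rw [hU, en_conf_ptl]
          simp only [pairs, att_bump hτ, Finset.sum_add_distrib, ← Finset.mul_sum]
          ring
        have hC := sum_cross_le hτ hl m x
        have hsame := same_nonneg (fun i => cell (x i))
        have hC' : ∑ j : Fin 3 → Fin l,
            (pairs x (att τ) - pairsIn (fun i => blk l j (x i)) x (att τ))
            ≤ (l : ℝ) ^ 3 * (θ / 20) * same (fun i => cell (x i)) :=
          hC.trans (by gcongr)
        have hj : ∀ j, W j ≤ U + (pairs x (att τ) - pairsIn (fun i => blk l j (x i)) x (att τ)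
            - θ / 20 * same (fun i => cell (x i))) / 2 := by
          intro j
          set f := fun i => blk l j (x i)
          have hk : s * pairs x (kern (rad k)) ≤ c * same f := by
            have h := pairs_kern_le hl' (fun d => ((j d : ℕ) : ℝ)) x hR
            rw [← blk_eq_grid l j] at h
            have h' := mul_le_mul_of_nonneg_left h hs.le
            refine h'.trans (le_of_eq ?_)
            rw [hc, hq]; ring
          have hc1 := pairsIn_le_pairs f x core_nonneg
          have hc0 : 0 ≤ pairsIn f x core := Finset.sum_nonneg (fun i _ =>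
            Finset.sum_nonneg (fun i' _ => by
              split_ifs
              · exact core_nonneg _
              · exact le_rfl))
          have hcell : pairsIn (fun i => cell (x i)) x core ≤ pairsIn f x core := by
            refine Finset.sum_le_sum (fun i _ => Finset.sum_le_sum (fun i' _ => ?_))
            by_cases h : cell (x i) = cell (x i')
            · have h2 : f i = f i' := funext fun d => by simp only [f, blk, h]
              simp [h, h2]
            · rw [if_neg h]
              split_ifs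
              · exact core_nonneg _
              · exact le_rfl
          have h8 := same_cell_le (m := 2) le_rfl hx
          norm_num at h8
          have hNn : (0 : ℝ) ≤ N := Nat.cast_nonneg _
          have h9 : θ / 20 * same (fun i => cell (x i))
              ≤ θ / 20 * (8 * N + 27 / 8 * pairsIn f x core) := by
            refine mul_le_mul_of_nonneg_left (h8.trans ?_) (by positivity)
            gcongr
          have h10 : 0 ≤ θ * N := by positivity
          have h11 : 0 ≤ θ * pairsIn f x core := by positivity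
          simp only [hW, hUe]
          nlinarith
        refine (Finset.sum_le_sum (fun j _ => hj j)).trans ?_
        rw [Finset.sum_add_distrib, ← Finset.sum_div, Finset.sum_sub_distrib (s := Finset.univ)
          (f := fun j : Fin 3 → Fin l =>
            pairs x (att τ) - pairsIn (fun i => blk l j (x i)) x (att τ))
          (g := fun _ => θ / 20 * same (fun i => cell (x i))),
          Finset.sum_const, Finset.sum_const, nsmul_eq_mul, nsmul_eq_mul, hcardj]
        linarith
      haveI : NeZero l := ⟨hl.ne'⟩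
      obtain ⟨j, -, hj⟩ := Finset.exists_le_of_sum_le Finset.univ_nonempty hsum
      refine le_trans ?_ (Finset.single_le_sum (fun j _ => zero_le) (Finset.mem_univ j))
      rw [hG j]
      exact ENNReal.ofReal_le_ofReal (Real.exp_le_exp.2 (by linarith))
    have hGmeas : ∀ j, MeasG (G j) := fun j => MeasG.finset_prod (fun b _ =>
      (measG_bfun hτ θ (μ + θ) c).filter (measurable_grid_preimage hl' _ b))
    refine (gint_mono (measurableSet_box L) (g' := fun mm => ∑ j, G j mm) hpt).trans ?_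
    have hsplit : gint (box L) (fun mm => ∑ j, G j mm) = ∑ j, gint (box L) (G j) := by
      unfold gint cint
      rw [← Summable.tsum_finsetSum (fun _ _ => ENNReal.summable)]
      refine tsum_congr (fun N => ?_)
      rw [lintegral_finsetSum _ (fun j _ => hGmeas j N), Finset.mul_sum]
    rw [hsplit]
    have hone : ∀ j, gint (box L) (G j) ≤ ENNReal.ofReal (Real.exp ((L / l + 3) ^ 3 * Z)) := by
      intro j
      set o : Fin 3 → ℝ := fun d => ((j d : ℕ) : ℝ) with ho
      have hsub : box L ⊆ ⋃ b ∈ B, gridCube (l : ℝ) o b := fun y hy =>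
        mem_iUnion₂.2 ⟨blk l j y, hmem j y hy,
          (mem_gridCube hl').2 (by rw [blk_eq_grid])⟩
      refine (gint_mono_set hsub _).trans ?_
      have hd : (↑B : Set (Fin 3 → ℤ)).PairwiseDisjoint (gridCube (l : ℝ) o) := by
        intro b _ b' _ hne
        exact Set.disjoint_left.2 (fun y hy hy' =>
          hne ((mem_gridCube hl').1 hy ▸ (mem_gridCube hl').1 hy'))
      rw [show G j = fun mm => ∏ b ∈ B, (fun _ : Fin 3 → ℤ => bfun τ θ (μ + θ) c) b
        (mm.filter (· ∈ gridCube (l : ℝ) o b)) from rfl]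
      rw [gint_biUnion B (fun b _ => measurable_grid_preimage hl' o b) hd
        (fun b _ => measG_bfun hτ θ (μ + θ) c)]
      refine (Finset.prod_le_prod' (fun b _ => ?_)).trans
        (b := ∏ _b ∈ B, ENNReal.ofReal (Real.exp Z)) ?_
      · set v := vec (fun d => (l : ℝ) * b d - o d)
        have hs2 : gridCube (l : ℝ) o b ⊆ shift v (box l) := by
          intro y hy d
          have := hy d
          simp only [v, PiLp.sub_apply, vec_apply, Set.mem_Icc]
          constructor <;> linarith [this.1, this.2]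
        refine ((gint_mono_set hs2 _).trans (le_of_eq (gint_shift v ?_))).trans hblock
        intro mm
        simp [bfun, wt_map_sub]
      · rw [Finset.prod_const, ← ENNReal.ofReal_pow (Real.exp_pos _).le, ← Real.exp_nat_mul]
        refine ENNReal.ofReal_le_ofReal (Real.exp_le_exp.2 (mul_le_mul_of_nonneg_right ?_ hZ0))
        simp only [B, Fintype.card_piFinset, Int.card_Icc, Finset.prod_const, Finset.card_univ,
          Fintype.card_fin, sub_zero]
        rw [show ((n : ℤ) + 1).toNat = n + 1 by omega]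
        push_cast
        have h1 := Nat.floor_le (show 0 ≤ L / (l : ℝ) by positivity)
        refine pow_le_pow_left₀ (by positivity) ?_ 3
        simp only [n]; push_cast
        linarith
    refine (Finset.sum_le_sum (fun j _ => hone j)).trans (le_of_eq ?_)
    rw [Finset.sum_const, Finset.card_univ, nsmul_eq_mul, Real.exp_add, Real.exp_log hl3,
      ENNReal.ofReal_mul hl3.le]
    simp [← ENNReal.ofReal_pow hl'.le]
  have hlim : Tendsto (fun L : ℝ => (Real.log ((l : ℝ) ^ 3) + (L / l + 3) ^ 3 * Z) / L ^ 3)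
      atTop (𝓝 (Z / (l : ℝ) ^ 3)) := by
    have h1 : Tendsto (fun L : ℝ => Real.log ((l : ℝ) ^ 3) / L ^ 3
        + (1 / (l : ℝ) + 3 / L) ^ 3 * Z) atTop (𝓝 (Z / (l : ℝ) ^ 3)) := by
      have a1 : Tendsto (fun L : ℝ => Real.log ((l : ℝ) ^ 3) / L ^ 3) atTop (𝓝 0) :=
        tendsto_const_nhds.div_atTop (tendsto_pow_atTop (by norm_num))
      have a2 : Tendsto (fun L : ℝ => 3 / L) atTop (𝓝 0) :=
        tendsto_const_nhds.div_atTop tendsto_id
      have := a1.add (((a2.const_add (1 / (l : ℝ))).pow 3).mul_const Z)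
      simpa [one_div, inv_pow, div_eq_inv_mul] using this
    refine h1.congr' ?_
    filter_upwards [eventually_gt_atTop (0 : ℝ)] with L hL
    field_simp
  have := le_of_tendsto_of_tendsto (tendsto_press hτ' μ) hlim ?_
  · refine this.trans (le_of_eq ?_)
    rw [hZ, sub_div, mul_div_assoc]
    simp only [Br]
    field_simp
  · filter_upwards [eventually_gt_atTop (0 : ℝ)] with L hL
    exact div_le_div_of_nonneg_right (hmain L hL.le) (by positivity)

end Vale.Agent.P171
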